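import Mathlib

open scoped BigOperators

namespace Vale.Agent.P262

noncomputable def gram {A κ : Type*} [Fintype A] (V : A → κ → ℝ) (W : κ → A → ℝ) :
    Matrix κ κ ℝ := fun l m => ∑ a, W l a * V a m

theorem auerbach {A κ : Type*} [Fintype A] [Fintype κ] [DecidableEq κ] (V : A → κ → ℝ)
    (W0 : κ → A → ℝ) (hW0 : ∀ l a, |W0 l a| ≤ 1) (hdet0 : 0 < (gram V W0).det) :
    ∃ W : κ → A → ℝ, (∀ l a, |W l a| ≤ 1) ∧ 0 < (gram V W).det ∧
      ∀ w : A → ℝ, (∀ a, |w a| ≤ 1) →
        ∃ α : κ → ℝ, (∀ l, |α l| ≤ 1) ∧ ∀ m, ∑ a, w a * V a m = ∑ l, α l * gram V W l m := by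
  classical
  set C : Set (κ → A → ℝ) := Set.pi Set.univ (fun _ => Set.pi Set.univ (fun _ => Set.Icc (-1) 1))
    with hC
  have hCc : IsCompact C := isCompact_univ_pi fun _ => isCompact_univ_pi fun _ => isCompact_Icc
  have hmem : ∀ W : κ → A → ℝ, W ∈ C ↔ ∀ l a, |W l a| ≤ 1 := by
    intro W
    simp only [hC, Set.mem_univ_pi, Set.mem_Icc, abs_le]
  have hne : C.Nonempty := ⟨W0, (hmem W0).2 hW0⟩
  have hcont : Continuous (fun W : κ → A → ℝ => (gram V W).det) := by
    apply Continuous.matrix_det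
    unfold gram
    fun_prop
  obtain ⟨W, hWC, hmax⟩ := hCc.exists_isMaxOn hne hcont.continuousOn
  have hW := (hmem W).1 hWC
  have hdet : 0 < (gram V W).det := lt_of_lt_of_le hdet0 (hmax ((hmem W0).2 hW0))
  refine ⟨W, hW, hdet, ?_⟩
  intro w hw
  set g : κ → ℝ := fun m => ∑ a, w a * V a m with hg
  have hunit : IsUnit (gram V W).det := isUnit_iff_ne_zero.2 hdet.ne'
  set α : κ → ℝ := Matrix.vecMul g (gram V W)⁻¹ with hα
  have hαg : Matrix.vecMul α (gram V W) = g := by
    rw [hα, Matrix.vecMul_vecMul, Matrix.nonsing_inv_mul _ hunit, Matrix.vecMul_one]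
  have hgsum : g = ∑ l, α l • gram V W l := by
    rw [← hαg]
    ext m
    simp [Matrix.vecMul, dotProduct, Finset.sum_apply]
  have hupd : ∀ (l : κ) (w' : A → ℝ), gram V (Function.update W l w') =
      (gram V W).updateRow l (fun m => ∑ a, w' a * V a m) := by
    intro l w'
    ext i m
    by_cases h : i = l
    · subst h
      simp [gram]
    · simp [gram, Matrix.updateRow_ne h, Function.update_of_ne h]
  have hle : ∀ (l : κ) (w' : A → ℝ), (∀ a, |w' a| ≤ 1) →
      ((gram V W).updateRow l (fun m => ∑ a, w' a * V a m)).det ≤ (gram V W).det := by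
    intro l w' hw'
    rw [← hupd]
    apply hmax
    rw [hmem]
    intro i a
    by_cases h : i = l
    · subst h
      simpa using hw' a
    · simpa [Function.update_of_ne h] using hW i a
  refine ⟨α, ?_, ?_⟩
  · intro l
    have h1 : ((gram V W).updateRow l g).det = α l * (gram V W).det := by
      rw [hgsum, Matrix.det_updateRow_sum, smul_eq_mul]
    have h2 := hle l w hw
    have h3 := hle l (fun a => - w a) (fun a => by rw [abs_neg]; exact hw a)
    have h4 : (fun m => ∑ a, (- w a) * V a m) = (-1 : ℝ) • g := by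
      ext m
      simp [hg]
    rw [h4, Matrix.det_updateRow_smul, h1] at h3
    change ((gram V W).updateRow l g).det ≤ _ at h2
    rw [h1] at h2
    rw [abs_le]
    constructor
    · nlinarith
    · nlinarith
  · intro m
    have := congrFun hgsum m
    simpa [hg, Finset.sum_apply] using this

end Vale.Agent.P262
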