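import Mathlib

open scoped BigOperators

namespace Vale.Agent.P262

noncomputable def prefixMax {d N : ℕ} (v : Fin N → EuclideanSpace ℝ (Fin d))
    (π : Equiv.Perm (Fin N)) : ENNReal :=
  ⨆ k : Fin (N + 1), ENNReal.ofReal ‖∑ i ∈ Finset.univ.filter (fun i : Fin N => i.val < k.val), v (π i)‖

noncomputable def beta {d N : ℕ} (v : Fin N → EuclideanSpace ℝ (Fin d)) : ENNReal :=
  ⨅ π : Equiv.Perm (Fin N), prefixMax v π

noncomputable def steinitz (d : ℕ) : ENNReal :=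
  ⨆ (N : ℕ) (v : Fin N → EuclideanSpace ℝ (Fin d)) (_ : ∀ i, ‖v i‖ ≤ 1) (_ : ∑ i, v i = 0), beta v

end Vale.Agent.P262
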