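import Mathlib

open scoped BigOperators

namespace Vale.Agent.P262

theorem list_to_perm {N : ℕ} (L : List (Fin N)) (hnd : L.Nodup) (hL : L.toFinset = Finset.univ) :
    ∃ π : Equiv.Perm (Fin N), ∀ {M : Type} [AddCommMonoid M] (f : Fin N → M) (k : ℕ), k ≤ N →
      (∑ i ∈ Finset.univ.filter (fun i : Fin N => (i : ℕ) < k), f (π i)) = ((L.take k).map f).sum := by
  have hlen : L.length = N := by
    have h1 := List.toFinset_card_of_nodup hnd
    rw [hL] at h1
    simpa using h1.symm
  have hinj : Function.Injective (fun i : Fin N => L.get (i.cast hlen.symm)) := by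
    intro a b hab
    have h2 := List.nodup_iff_injective_get.1 hnd hab
    simpa using h2
  refine ⟨Equiv.ofBijective _ (Finite.injective_iff_bijective.1 hinj), ?_⟩
  intro M _ f k hk
  simp only [Equiv.ofBijective_apply]
  induction k with
  | zero => simp
  | succ k ih =>
    have hk' : k < N := hk
    have hset : (Finset.univ.filter fun i : Fin N => (i : ℕ) < k + 1)
        = insert (⟨k, hk'⟩ : Fin N) (Finset.univ.filter fun i : Fin N => (i : ℕ) < k) := by
      ext i
      simp only [Finset.mem_filter, Finset.mem_univ, true_and, Finset.mem_insert, Fin.ext_iff]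
      omega
    have hnot : (⟨k, hk'⟩ : Fin N) ∉ (Finset.univ.filter fun i : Fin N => (i : ℕ) < k) := by
      simp
    rw [hset, Finset.sum_insert hnot, ih (by omega)]
    have hkL : k < L.length := by omega
    rw [List.take_add_one, List.getElem?_eq_getElem hkL]
    simp only [Option.toList_some, List.map_append, List.map_cons, List.map_nil, List.sum_append,
      List.sum_cons, List.sum_nil, add_zero]
    rw [add_comm]
    rfl

end Vale.Agent.P262
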