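import Mathlib

open scoped BigOperators

namespace Vale.Agent.P262

theorem near_id_bound {κ : Type*} [Fintype κ] [DecidableEq κ] (M : κ → κ → ℝ)
    (h : ∀ l, ∑ m, |M l m - (if l = m then 1 else 0)| ≤ 1 / 2) (β : κ → ℝ) :
    ∑ l, |β l| ≤ 2 * ∑ m, |∑ l, β l * M l m| := by
  have h1 : ∀ m, |β m| ≤ |∑ l, β l * M l m| + ∑ l, |β l| * |M l m - (if l = m then 1 else 0)| := by
    intro m
    have e : β m = (∑ l, β l * M l m) - ∑ l, β l * (M l m - (if l = m then 1 else 0)) := by
      rw [← Finset.sum_sub_distrib]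
      have : ∀ l, β l * M l m - β l * (M l m - (if l = m then 1 else 0)) =
          if l = m then β l else 0 := by
        intro l
        split_ifs <;> ring
      simp [this]
    calc |β m| = |(∑ l, β l * M l m) - ∑ l, β l * (M l m - (if l = m then 1 else 0))| := by
          rw [← e]
      _ ≤ |∑ l, β l * M l m| + |∑ l, β l * (M l m - (if l = m then 1 else 0))| := abs_sub _ _
      _ ≤ |∑ l, β l * M l m| + ∑ l, |β l| * |M l m - (if l = m then 1 else 0)| := by
          gcongr
          refine (Finset.abs_sum_le_sum_abs _ _).trans (le_of_eq ?_)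
          apply Finset.sum_congr rfl
          intro l _
          rw [abs_mul]
  have h2 : ∑ m, ∑ l, |β l| * |M l m - (if l = m then 1 else 0)| ≤ ∑ l, |β l| * (1/2) := by
    rw [Finset.sum_comm]
    apply Finset.sum_le_sum
    intro l _
    rw [← Finset.mul_sum]
    exact mul_le_mul_of_nonneg_left (h l) (abs_nonneg _)
  have h3 : ∑ m, |β m| ≤ ∑ m, |∑ l, β l * M l m| + ∑ l, |β l| * (1/2) := by
    calc ∑ m, |β m| ≤ ∑ m, (|∑ l, β l * M l m| +
          ∑ l, |β l| * |M l m - (if l = m then 1 else 0)|) :=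
          Finset.sum_le_sum (fun m _ => h1 m)
      _ = ∑ m, |∑ l, β l * M l m| + ∑ m, ∑ l, |β l| * |M l m - (if l = m then 1 else 0)| :=
          Finset.sum_add_distrib
      _ ≤ _ := by gcongr
  rw [← Finset.sum_mul] at h3
  linarith

theorem near_id {κ : Type*} [Fintype κ] [DecidableEq κ] (M : κ → κ → ℝ)
    (h : ∀ l, ∑ m, |M l m - (if l = m then 1 else 0)| ≤ 1 / 2) (γ : κ → ℝ) :
    ∃ β : κ → ℝ, (∀ m, ∑ l, β l * M l m = γ m) ∧ ∑ l, |β l| ≤ 2 * ∑ m, |γ m| := by
  set T : (κ → ℝ) →ₗ[ℝ] (κ → ℝ) :=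
    { toFun := fun β m => ∑ l, β l * M l m
      map_add' := by
        intro a b
        ext m
        simp [add_mul, Finset.sum_add_distrib]
      map_smul' := by
        intro c a
        ext m
        simp [Finset.mul_sum, mul_assoc] } with hT
  have hinj : Function.Injective T := by
    rw [← LinearMap.ker_eq_bot, LinearMap.ker_eq_bot']
    intro β hβ
    have h1 := near_id_bound M h β
    have h2 : ∀ m, ∑ l, β l * M l m = 0 := fun m => congrFun hβ m
    simp only [h2, abs_zero, Finset.sum_const_zero, mul_zero] at h1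
    have h3 : ∑ l, |β l| = 0 := le_antisymm h1 (Finset.sum_nonneg fun _ _ => abs_nonneg _)
    rw [Finset.sum_eq_zero_iff_of_nonneg (fun _ _ => abs_nonneg _)] at h3
    ext l
    exact abs_eq_zero.1 (h3 l (Finset.mem_univ l))
  have hsurj : Function.Surjective T := LinearMap.injective_iff_surjective.1 hinj
  obtain ⟨β, hβ⟩ := hsurj γ
  have h2 : ∀ m, ∑ l, β l * M l m = γ m := fun m => congrFun hβ m
  refine ⟨β, h2, ?_⟩
  have h1 := near_id_bound M h β
  simpa only [h2] using h1

end Vale.Agent.P262
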