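import Vale.Agent.P262.Defs

open scoped BigOperators

namespace Vale.Agent.P262

theorem steinitz_le {d : ℕ} {B : ℝ}
    (h : ∀ (N : ℕ) (v : Fin N → EuclideanSpace ℝ (Fin d)), (∀ i, ‖v i‖ ≤ 1) → ∑ i, v i = 0 →
      ∃ π : Equiv.Perm (Fin N), ∀ k : ℕ, k ≤ N →
        ‖∑ i ∈ Finset.univ.filter (fun i : Fin N => (i : ℕ) < k), v (π i)‖ ≤ B) :
    steinitz d ≤ ENNReal.ofReal B := by
  unfold steinitz
  refine iSup_le fun N => iSup_le fun v => iSup_le fun hv => iSup_le fun hs => ?_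
  obtain ⟨π, hπ⟩ := h N v hv hs
  refine (iInf_le _ π).trans ?_
  unfold prefixMax
  exact iSup_le fun k => ENNReal.ofReal_le_ofReal (hπ k (Nat.lt_succ_iff.1 k.2))

theorem le_steinitz {d N : ℕ} {B : ℝ} (v : Fin N → EuclideanSpace ℝ (Fin d))
    (hv : ∀ i, ‖v i‖ ≤ 1) (hs : ∑ i, v i = 0)
    (h : ∀ π : Equiv.Perm (Fin N), ∃ k : ℕ, k ≤ N ∧
        B ≤ ‖∑ i ∈ Finset.univ.filter (fun i : Fin N => (i : ℕ) < k), v (π i)‖) :
    ENNReal.ofReal B ≤ steinitz d := by
  unfold steinitz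
  refine le_iSup_of_le N (le_iSup_of_le v (le_iSup_of_le hv (le_iSup_of_le hs ?_)))
  refine le_iInf fun π => ?_
  obtain ⟨k, hk, hB⟩ := h π
  unfold prefixMax
  exact le_iSup_of_le (⟨k, Nat.lt_succ_iff.2 hk⟩ : Fin (N + 1)) (ENNReal.ofReal_le_ofReal hB)

theorem disc_ivt (a : ℕ → ℕ) (h0 : a 0 = 0) (hs : ∀ k, a (k + 1) ≤ a k + 1) (N m : ℕ)
    (hN : m ≤ a N) : ∃ k ≤ N, a k = m := by
  induction N with
  | zero => exact ⟨0, le_rfl, by omega⟩
  | succ N ih =>
    by_cases hm : m ≤ a N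
    · obtain ⟨k, hk, hkm⟩ := ih hm
      exact ⟨k, by omega, hkm⟩
    · exact ⟨N + 1, le_rfl, by have := hs N; omega⟩

noncomputable def lowv (d : ℕ) : Fin (d + d) → EuclideanSpace ℝ (Fin d) :=
  Fin.append (fun j : Fin d => EuclideanSpace.single j (1 : ℝ))
    (fun _ : Fin d => WithLp.toLp 2 (fun _ : Fin d => -(1 / (d : ℝ))))

theorem lowv_sum (d : ℕ) (hd : 1 ≤ d) : ∑ i, lowv d i = 0 := by
  have hd0 : (d : ℝ) ≠ 0 := by positivity
  rw [Fin.sum_univ_add]
  simp only [lowv, Fin.append_left, Fin.append_right]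
  ext j
  simp [Finset.sum_apply, Pi.single_apply, hd0]

theorem lowv_norm (d : ℕ) (hd : 1 ≤ d) (i : Fin (d + d)) : ‖lowv d i‖ ≤ 1 := by
  have hd0 : (1 : ℝ) ≤ d := by exact_mod_cast hd
  refine Fin.addCases (fun j => ?_) (fun j => ?_) i
  · simp [lowv, Fin.append_left]
  · simp only [lowv, Fin.append_right]
    rw [EuclideanSpace.norm_eq]
    simp only [Finset.sum_const, Finset.card_univ, Fintype.card_fin, nsmul_eq_mul, norm_neg,
      Real.norm_eq_abs, sq_abs]
    rw [Real.sqrt_le_one]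
    rw [div_pow, one_pow, mul_one_div, div_le_one (by positivity)]
    nlinarith

theorem lowv_coord {d : ℕ} (π : Equiv.Perm (Fin (d + d))) (k : ℕ) (j : Fin d) :
    (∑ i ∈ Finset.univ.filter (fun i : Fin (d + d) => (i : ℕ) < k), lowv d (π i)) j
      = (if ((π.symm (Fin.castAdd d j) : Fin (d + d)) : ℕ) < k then 1 else 0)
        - (((Finset.univ.filter (fun i : Fin d =>
            ((π.symm (Fin.natAdd d i) : Fin (d + d)) : ℕ) < k)).card : ℝ) / d) := by
  have h1 : ∑ i ∈ Finset.univ.filter (fun i : Fin (d + d) => (i : ℕ) < k), lowv d (π i)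
      = ∑ i : Fin (d + d), if ((π.symm i : Fin (d + d)) : ℕ) < k then lowv d i else 0 := by
    rw [Finset.sum_filter]
    exact Fintype.sum_equiv π _ _ (fun i => by simp)
  rw [h1, Fin.sum_univ_add]
  simp only [lowv, Fin.append_left, Fin.append_right]
  rw [← Finset.sum_filter, ← Finset.sum_filter]
  simp only [Finset.sum_const, PiLp.add_apply, PiLp.smul_apply, nsmul_eq_mul]
  rw [WithLp.ofLp_sum]
  simp [Finset.sum_apply, Pi.single_apply]
  ring

theorem steinitz_ge_aux (d : ℕ) (hd : 2 ≤ d) :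
    ENNReal.ofReal (1 / 3 * √(d : ℝ)) ≤ steinitz d := by
  refine le_steinitz (lowv d) (lowv_norm d (by omega)) (lowv_sum d (by omega)) fun π => ?_
  set A : ℕ → Finset (Fin d) := fun k =>
    Finset.univ.filter (fun j : Fin d => ((π.symm (Fin.castAdd d j) : Fin (d + d)) : ℕ) < k)
    with hA
  obtain ⟨k, hk, hak⟩ := disc_ivt (fun k => (A k).card) (by simp [hA]) (by
    intro k
    have hsub : A (k + 1) ⊆ A k ∪ Finset.univ.filter
        (fun j : Fin d => ((π.symm (Fin.castAdd d j) : Fin (d + d)) : ℕ) = k) := by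
      intro j
      simp only [hA, Finset.mem_filter, Finset.mem_univ, true_and, Finset.mem_union]
      omega
    refine (Finset.card_le_card hsub).trans ((Finset.card_union_le _ _).trans ?_)
    gcongr
    rw [Finset.card_le_one]
    intro a ha b hb
    simp only [Finset.mem_filter, Finset.mem_univ, true_and] at ha hb
    have h3 := π.symm.injective (Fin.ext (ha.trans hb.symm))
    exact Fin.castAdd_injective _ _ h3) (d + d) (d / 2) (by
    have : A (d + d) = Finset.univ := by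
      ext j
      simp [hA]
    simp only [this, Finset.card_univ, Fintype.card_fin]
    exact Nat.div_le_self d 2)
  refine ⟨k, hk, ?_⟩
  rw [EuclideanSpace.norm_eq]
  rw [show (1 : ℝ) / 3 * √(d : ℝ) = √(1 / 9 * d) by
    rw [Real.sqrt_mul (by norm_num), show (1 : ℝ) / 9 = (1 / 3) ^ 2 by norm_num,
      Real.sqrt_sq (by norm_num)]]
  apply Real.sqrt_le_sqrt
  simp only [lowv_coord, Real.norm_eq_abs, sq_abs]
  set x : ℝ := ((Finset.univ.filter (fun i : Fin d =>
            ((π.symm (Fin.natAdd d i) : Fin (d + d)) : ℕ) < k)).card : ℝ) / d with hx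
  have h5 : ∑ j : Fin d,
      ((if ((π.symm (Fin.castAdd d j) : Fin (d + d)) : ℕ) < k then (1 : ℝ) else 0) - x) ^ 2
      = (A k).card * (1 - 2 * x) + d * x ^ 2 := by
    have h6 : ∀ j : Fin d,
      ((if ((π.symm (Fin.castAdd d j) : Fin (d + d)) : ℕ) < k then (1 : ℝ) else 0) - x) ^ 2
        = (if ((π.symm (Fin.castAdd d j) : Fin (d + d)) : ℕ) < k then (1 - 2 * x) else 0)
          + x ^ 2 := by
      intro j
      split_ifs <;> ring
    simp_rw [h6]
    rw [Finset.sum_add_distrib, ← Finset.sum_filter]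
    simp [hA]
    ring
  rw [h5]
  have hak' : (A k).card = d / 2 := hak
  rw [hak']
  have hd0 : (0 : ℝ) < d := by positivity
  have e1 : (d : ℝ) / 2 - 1 / 2 ≤ ((d / 2 : ℕ) : ℝ) := by
    have : d ≤ 2 * (d / 2) + 1 := by omega
    have h' : (d : ℝ) ≤ 2 * ((d / 2 : ℕ) : ℝ) + 1 := by exact_mod_cast this
    linarith
  have e2 : ((d / 2 : ℕ) : ℝ) ≤ (d : ℝ) / 2 := Nat.cast_div_le
  have e3 : (2 : ℝ) ≤ d := by exact_mod_cast hd
  have e4 : (d : ℝ) ≤ 3 * ((d / 2 : ℕ) : ℝ) := by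
    have : d ≤ 3 * (d / 2) := by omega
    exact_mod_cast this
  set m : ℝ := ((d / 2 : ℕ) : ℝ) with hm
  have e5 : m * (d - m) / d ≤ m * (1 - 2 * x) + d * x ^ 2 := by
    rw [div_le_iff₀ hd0]
    nlinarith [sq_nonneg (d * x - m)]
  refine le_trans ?_ e5
  rw [le_div_iff₀ hd0]
  nlinarith [mul_nonneg (by linarith : (0 : ℝ) ≤ 3 * m - d) (by linarith : (0 : ℝ) ≤ d - 2 * m)]

theorem steinitz_ge_one : ENNReal.ofReal (1 / 3 * √((1 : ℕ) : ℝ)) ≤ steinitz 1 := by
  refine le_steinitz (lowv 1) (lowv_norm 1 le_rfl) (lowv_sum 1 le_rfl) fun π => ⟨1, by norm_num, ?_⟩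
  have h1 : (Finset.univ.filter (fun i : Fin (1 + 1) => (i : ℕ) < 1)) = {0} := by
    decide
  rw [h1, Finset.sum_singleton]
  have h2 : ∀ i : Fin (1 + 1), ‖lowv 1 i‖ = 1 := by
    intro i
    refine Fin.addCases (fun j => ?_) (fun j => ?_) i
    · simp [lowv, Fin.append_left]
    · simp only [lowv, Fin.append_right]
      rw [EuclideanSpace.norm_eq]
      simp
  rw [h2]
  norm_num

theorem steinitz_ge : ∃ c : ℝ, 0 < c ∧ ∀ d : ℕ, 1 ≤ d →
    ENNReal.ofReal (c * √(d : ℝ)) ≤ steinitz d := by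
  refine ⟨1 / 3, by norm_num, fun d hd => ?_⟩
  rcases Nat.lt_or_ge 1 d with h | h
  · exact steinitz_ge_aux d h
  · have : d = 1 := by omega
    subst this
    exact steinitz_ge_one

end Vale.Agent.P262
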