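import Mathlib

open scoped BigOperators

namespace Vale.Agent.P262

noncomputable def Fc (a z : ℝ) : ℝ := Real.cosh a + z * Real.sinh a

noncomputable def Lp (ρ g z : ℝ) : ℝ := (Fc (g / ρ) z) ^ ρ * Real.exp (-(g * z))

theorem Fc_eq (a z : ℝ) : Fc a z = (1 + z) / 2 * Real.exp a + (1 - z) / 2 * Real.exp (-a) := by
  unfold Fc
  rw [Real.cosh_eq, Real.sinh_eq]
  ring

theorem Fc_pos {a z : ℝ} (hz : |z| ≤ 1) : 0 < Fc a z := by
  rw [Fc_eq]
  obtain ⟨h1, h2⟩ := abs_le.1 hz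
  have e1 := Real.exp_pos a
  have e2 := Real.exp_pos (-a)
  rcases lt_or_ge z 0 with h | h
  · have : 0 < (1 - z) / 2 * Real.exp (-a) := by
      apply mul_pos _ e2
      linarith
    have : 0 ≤ (1 + z) / 2 * Real.exp a := mul_nonneg (by linarith) e1.le
    linarith
  · have : 0 < (1 + z) / 2 * Real.exp a := by
      apply mul_pos _ e1
      linarith
    have : 0 ≤ (1 - z) / 2 * Real.exp (-a) := mul_nonneg (by linarith) e2.le
    linarith

theorem Fc_zero (z : ℝ) : Fc 0 z = 1 := by simp [Fc]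

theorem Fc_one (a : ℝ) : Fc a 1 = Real.exp a := by
  rw [Fc_eq]; ring

theorem Fc_neg_one (a : ℝ) : Fc a (-1) = Real.exp (-a) := by
  rw [Fc_eq]; ring

theorem hasDerivAt_Fc (a z : ℝ) : HasDerivAt (fun a => Fc a z) (Real.sinh a + z * Real.cosh a) a := by
  unfold Fc
  exact (Real.hasDerivAt_cosh a).add ((Real.hasDerivAt_sinh a).const_mul z)

theorem hasDerivAt_Gc (a z : ℝ) :
    HasDerivAt (fun a => Real.sinh a + z * Real.cosh a) (Fc a z) a := by
  unfold Fc
  exact (Real.hasDerivAt_sinh a).add ((Real.hasDerivAt_cosh a).const_mul z)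

theorem Fc_le_pos {a z : ℝ} (hz : |z| ≤ 1) (ha : 0 ≤ a) : Fc a z ≤ Real.exp (a * z + a ^ 2 / 2) := by
  set t : ℝ → ℝ := fun a => (Real.sinh a + z * Real.cosh a) / Fc a z with ht
  have hdt : ∀ x, HasDerivAt t (1 - t x ^ 2) x := by
    intro x
    have h := (hasDerivAt_Gc x z).fun_div (hasDerivAt_Fc x z) (Fc_pos hz).ne'
    refine h.congr_deriv ?_
    rw [ht]
    have := (Fc_pos (a := x) hz).ne'
    field_simp
  have hm : Monotone (fun x => x - t x) := by
    apply monotone_of_deriv_nonneg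
    · intro x
      exact ((hasDerivAt_id x).sub (hdt x)).differentiableAt
    · intro x
      have h := ((hasDerivAt_id x).sub (hdt x)).deriv
      have h2 : deriv (fun x => x - t x) x = 1 - (1 - t x ^ 2) := h
      rw [h2]
      nlinarith [sq_nonneg (t x)]
  have ht0 : t 0 = z := by simp [ht, Fc]
  have hle : ∀ x, 0 ≤ x → t x ≤ z + x := by
    intro x hx
    have := hm hx
    simp only [ht0] at this
    linarith
  set g : ℝ → ℝ := fun a => Fc a z * Real.exp (-(a * z + a ^ 2 / 2)) with hg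
  have hdg : ∀ x, HasDerivAt g ((Real.sinh x + z * Real.cosh x) * Real.exp (-(x * z + x ^ 2 / 2)) +
      Fc x z * (Real.exp (-(x * z + x ^ 2 / 2)) * (-(z + x)))) x := by
    intro x
    have h1 : HasDerivAt (fun a : ℝ => -(a * z + a ^ 2 / 2)) (-(z + x)) x := by
      have h2 : HasDerivAt (fun a : ℝ => a * z + a ^ 2 / 2) (z + x) x := by
        have h3 := ((hasDerivAt_id' x).mul_const z).fun_add (((hasDerivAt_id' x).fun_pow 2).div_const 2)
        refine h3.congr_deriv ?_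
        simp
      exact h2.neg
    exact (hasDerivAt_Fc x z).mul h1.exp
  have hanti : AntitoneOn g (Set.Ici 0) := by
    apply antitoneOn_of_deriv_nonpos (convex_Ici 0)
    · exact fun x _ => (hdg x).continuousAt.continuousWithinAt
    · exact fun x _ => (hdg x).differentiableAt.differentiableWithinAt
    · intro x hx
      rw [interior_Ici, Set.mem_Ioi] at hx
      rw [(hdg x).deriv]
      have h1 := hle x hx.le
      have h2 := Fc_pos (a := x) hz
      rw [ht] at h1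
      simp only at h1
      rw [div_le_iff₀ h2] at h1
      have h3 := Real.exp_pos (-(x * z + x ^ 2 / 2))
      nlinarith
  have h1 := hanti (Set.mem_Ici.2 le_rfl) (Set.mem_Ici.2 ha) ha
  have h2 : g 0 = 1 := by simp [hg, Fc]
  rw [h2] at h1
  have h3 : g a = Fc a z * Real.exp (-(a * z + a ^ 2 / 2)) := rfl
  rw [h3] at h1
  rw [Real.exp_neg, ← div_eq_mul_inv, div_le_one (Real.exp_pos _)] at h1
  exact h1

theorem Fc_le {a z : ℝ} (hz : |z| ≤ 1) : Fc a z ≤ Real.exp (a * z + a ^ 2 / 2) := by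
  rcases le_or_gt 0 a with h | h
  · exact Fc_le_pos hz h
  · have h1 : Fc a z = Fc (-a) (-z) := by simp [Fc]
    rw [h1]
    have := Fc_le_pos (a := -a) (z := -z) (by rwa [abs_neg]) (by linarith)
    convert this using 2
    ring

theorem Lp_nonneg {ρ g z : ℝ} (hz : |z| ≤ 1) : 0 ≤ Lp ρ g z :=
  mul_nonneg (Real.rpow_nonneg (Fc_pos hz).le _) (Real.exp_pos _).le

theorem Lp_le {ρ g z Δ : ℝ} (hz : |z| ≤ 1) (hρ : 0 ≤ ρ) (hΔ : 0 ≤ Δ) (h : g ^ 2 ≤ ρ * Δ) :
    Lp ρ g z ≤ Real.exp (Δ / 2) := by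
  unfold Lp
  rcases hρ.eq_or_lt with h0 | h0
  · subst h0
    have hg : g = 0 := by
      have : g ^ 2 ≤ 0 := by simpa using h
      exact pow_eq_zero_iff (two_ne_zero) |>.1 (le_antisymm this (sq_nonneg g))
    subst hg
    simp
    positivity
  · have h1 : (Fc (g / ρ) z) ^ ρ ≤ (Real.exp (g / ρ * z + (g / ρ) ^ 2 / 2)) ^ ρ :=
      Real.rpow_le_rpow (Fc_pos hz).le (Fc_le hz) hρ
    rw [← Real.exp_mul] at h1
    calc (Fc (g / ρ) z) ^ ρ * Real.exp (-(g * z))
        ≤ Real.exp ((g / ρ * z + (g / ρ) ^ 2 / 2) * ρ) * Real.exp (-(g * z)) := by gcongr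
      _ = Real.exp (g ^ 2 / ρ / 2) := by
          rw [← Real.exp_add]
          congr 1
          field_simp
          ring
      _ ≤ Real.exp (Δ / 2) := by
          apply Real.exp_le_exp.2
          have : g ^ 2 / ρ ≤ Δ := by
            rw [div_le_iff₀ h0]
            linarith
          linarith

theorem Lp_end {ρ g z : ℝ} (hz : z = 1 ∨ z = -1) (hg : ρ = 0 → g = 0) : Lp ρ g z = 1 := by
  unfold Lp
  by_cases h0 : ρ = 0
  · rw [hg h0, h0]
    simp
  · rcases hz with h | h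
    · rw [h, Fc_one, ← Real.exp_mul, ← Real.exp_add]
      rw [div_mul_cancel₀ _ h0]
      simp
    · rw [h, Fc_neg_one, ← Real.exp_mul, ← Real.exp_add]
      have : -(g / ρ) * ρ = -g := by
        rw [neg_mul, div_mul_cancel₀ _ h0]
      rw [this]
      simp

theorem holder2 {x1 x2 y1 y2 s t : ℝ} (hx1 : 0 ≤ x1) (hx2 : 0 ≤ x2) (hy1 : 0 ≤ y1) (hy2 : 0 ≤ y2)
    (hx : 0 < x1 + x2) (hy : 0 < y1 + y2) (hs : 0 ≤ s) (ht : 0 ≤ t) (hst : s + t = 1) :
    x1 ^ s * y1 ^ t + x2 ^ s * y2 ^ t ≤ (x1 + x2) ^ s * (y1 + y2) ^ t := by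
  have h1 := Real.geom_mean_le_arith_mean2_weighted hs ht (div_nonneg hx1 hx.le)
    (div_nonneg hy1 hy.le) hst
  have h2 := Real.geom_mean_le_arith_mean2_weighted hs ht (div_nonneg hx2 hx.le)
    (div_nonneg hy2 hy.le) hst
  rw [Real.div_rpow hx1 hx.le, Real.div_rpow hy1 hy.le] at h1
  rw [Real.div_rpow hx2 hx.le, Real.div_rpow hy2 hy.le] at h2
  have hX : 0 < (x1 + x2) ^ s := Real.rpow_pos_of_pos hx _
  have hY : 0 < (y1 + y2) ^ t := Real.rpow_pos_of_pos hy _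
  have h3 : x1 ^ s / (x1 + x2) ^ s * (y1 ^ t / (y1 + y2) ^ t) +
      x2 ^ s / (x1 + x2) ^ s * (y2 ^ t / (y1 + y2) ^ t) ≤ 1 := by
    have e : s * (x1 / (x1 + x2)) + t * (y1 / (y1 + y2)) +
      (s * (x2 / (x1 + x2)) + t * (y2 / (y1 + y2))) = 1 := by
      field_simp
      linear_combination (x1 + x2) * (y1 + y2) * hst
    linarith
  have h4 : x1 ^ s / (x1 + x2) ^ s * (y1 ^ t / (y1 + y2) ^ t) +
      x2 ^ s / (x1 + x2) ^ s * (y2 ^ t / (y1 + y2) ^ t) =
      (x1 ^ s * y1 ^ t + x2 ^ s * y2 ^ t) / ((x1 + x2) ^ s * (y1 + y2) ^ t) := by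
    field_simp
  rw [h4, div_le_one (mul_pos hX hY)] at h3
  exact h3

theorem Fc_log_convex {a b z s t : ℝ} (hz : |z| ≤ 1) (hs : 0 ≤ s) (ht : 0 ≤ t) (hst : s + t = 1) :
    Fc (s * a + t * b) z ≤ (Fc a z) ^ s * (Fc b z) ^ t := by
  obtain ⟨h1, h2⟩ := abs_le.1 hz
  have p0 : 0 ≤ (1 + z) / 2 := by linarith
  have q0 : 0 ≤ (1 - z) / 2 := by linarith
  have hA := Fc_pos (a := a) hz
  have hB := Fc_pos (a := b) hz
  rw [Fc_eq] at hA hB
  have h := holder2 (mul_nonneg p0 (Real.exp_pos a).le) (mul_nonneg q0 (Real.exp_pos (-a)).le)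
    (mul_nonneg p0 (Real.exp_pos b).le) (mul_nonneg q0 (Real.exp_pos (-b)).le) hA hB hs ht hst
  rw [Fc_eq, Fc_eq a, Fc_eq b]
  refine le_trans (le_of_eq ?_) h
  have key : ∀ (p x y : ℝ), 0 ≤ p → (p * Real.exp x) ^ s * (p * Real.exp y) ^ t =
      p * Real.exp (s * x + t * y) := by
    intro p x y hp
    rw [Real.mul_rpow hp (Real.exp_pos _).le, Real.mul_rpow hp (Real.exp_pos _).le,
      ← Real.exp_mul, ← Real.exp_mul]
    have : p ^ s * p ^ t = p := by
      rw [← Real.rpow_add_of_nonneg hp hs ht, hst, Real.rpow_one]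
    calc p ^ s * Real.exp (x * s) * (p ^ t * Real.exp (y * t))
        = (p ^ s * p ^ t) * (Real.exp (x * s) * Real.exp (y * t)) := by ring
      _ = _ := by
          rw [this, ← Real.exp_add]
          ring_nf
  rw [key _ _ _ p0, key _ _ _ q0]
  congr 2
  ring_nf

theorem Lp_add {ρ σ g η z : ℝ} (hz : |z| ≤ 1) (hρ : 0 ≤ ρ) (hσ : 0 ≤ σ) (hg : ρ = 0 → g = 0)
    (hη : σ = 0 → η = 0) : Lp (ρ + σ) (g + η) z ≤ Lp ρ g z * Lp σ η z := by
  rcases hρ.eq_or_lt with h0 | h0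
  · have hg' := hg h0.symm
    rw [← h0, hg', zero_add, zero_add]
    have : Lp 0 0 z = 1 := by simp [Lp]
    rw [this, one_mul]
  rcases hσ.eq_or_lt with h1 | h1
  · have hη' := hη h1.symm
    rw [← h1, hη', add_zero, add_zero]
    have : Lp 0 0 z = 1 := by simp [Lp]
    rw [this, mul_one]
  unfold Lp
  have hpos : 0 < ρ + σ := by linarith
  have h2 := Fc_log_convex (a := g / ρ) (b := η / σ) (z := z) (s := ρ / (ρ + σ)) (t := σ / (ρ + σ))
    hz (by positivity) (by positivity) (by field_simp)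
  have h3 : ρ / (ρ + σ) * (g / ρ) + σ / (ρ + σ) * (η / σ) = (g + η) / (ρ + σ) := by
    field_simp
  rw [h3] at h2
  have hA := Fc_pos (a := g / ρ) hz
  have hB := Fc_pos (a := η / σ) hz
  have h4 := Real.rpow_le_rpow (Fc_pos hz).le h2 hpos.le
  rw [Real.mul_rpow (Real.rpow_nonneg hA.le _) (Real.rpow_nonneg hB.le _),
    ← Real.rpow_mul hA.le, ← Real.rpow_mul hB.le, div_mul_cancel₀ _ hpos.ne',
    div_mul_cancel₀ _ hpos.ne'] at h4
  calc Fc ((g + η) / (ρ + σ)) z ^ (ρ + σ) * Real.exp (-((g + η) * z))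
      ≤ (Fc (g / ρ) z ^ ρ * Fc (η / σ) z ^ σ) * Real.exp (-((g + η) * z)) := by gcongr
    _ = _ := by
      have : Real.exp (-((g + η) * z)) = Real.exp (-(g * z)) * Real.exp (-(η * z)) := by
        rw [← Real.exp_add]; ring_nf
      rw [this]
      ring

theorem Lp_step {ρ g z a b : ℝ} (ha : 0 < a) (hb : 0 < b) (hza : |z + a| ≤ 1) (hzb : |z - b| ≤ 1)
    (hρ : 0 ≤ ρ) (hρ1 : ρ ≤ 1) :
    b * (Real.exp (a * g) * Lp ρ g (z + a)) + a * (Real.exp (-(b * g)) * Lp ρ g (z - b)) ≤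
      (a + b) * Lp ρ g z := by
  unfold Lp
  set F1 := Fc (g / ρ) (z + a)
  set F2 := Fc (g / ρ) (z - b)
  have h1 : 0 < F1 := Fc_pos hza
  have h2 : 0 < F2 := Fc_pos hzb
  have hab : 0 < a + b := by linarith
  have hF : Fc (g / ρ) z = b / (a + b) * F1 + a / (a + b) * F2 := by
    simp only [F1, F2, Fc]
    field_simp
    ring
  have hc := (Real.concaveOn_rpow hρ hρ1).2 (Set.mem_Ici.2 h1.le) (Set.mem_Ici.2 h2.le)
    (show 0 ≤ b / (a + b) by positivity) (show 0 ≤ a / (a + b) by positivity) (by field_simp; ring)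
  simp only [smul_eq_mul] at hc
  rw [← hF] at hc
  have e1 : Real.exp (a * g) * (F1 ^ ρ * Real.exp (-(g * (z + a)))) = F1 ^ ρ * Real.exp (-(g * z)) := by
    have : Real.exp (-(g * z)) = Real.exp (a * g) * Real.exp (-(g * (z + a))) := by
      rw [← Real.exp_add]; ring_nf
    rw [this]; ring
  have e2 : Real.exp (-(b * g)) * (F2 ^ ρ * Real.exp (-(g * (z - b)))) =
      F2 ^ ρ * Real.exp (-(g * z)) := by
    have : Real.exp (-(g * z)) = Real.exp (-(b * g)) * Real.exp (-(g * (z - b))) := by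
      rw [← Real.exp_add]; ring_nf
    rw [this]; ring
  rw [e1, e2]
  have h3 : b * F1 ^ ρ + a * F2 ^ ρ ≤ (a + b) * Fc (g / ρ) z ^ ρ := by
    have := mul_le_mul_of_nonneg_left hc hab.le
    calc b * F1 ^ ρ + a * F2 ^ ρ = (a + b) * (b / (a + b) * F1 ^ ρ + a / (a + b) * F2 ^ ρ) := by
          field_simp
      _ ≤ _ := this
  have h4 := Real.exp_pos (-(g * z))
  nlinarith [mul_le_mul_of_nonneg_right h3 h4.le]

end Vale.Agent.P262
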