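import Vale.Agent.P262.Auerbach

open scoped BigOperators

namespace Vale.Agent.P262

theorem spectral {κ : Type*} [Fintype κ] [DecidableEq κ] (G : Matrix κ κ ℝ) (hG : G.det ≠ 0) :
    ∃ (b : OrthonormalBasis κ ℝ (EuclideanSpace ℝ κ)) (s : κ → ℝ), (∀ j, 0 < s j) ∧
      (∀ j, ∑ l, (∑ m, G l m * b j m) ^ 2 = s j ^ 2) ∧
      ∀ j m, ∑ l, (∑ m', G l m' * b j m') * G l m = s j ^ 2 * b j m := by
  have hS : (G.transpose * G).IsHermitian := by
    have := Matrix.isHermitian_conjTranspose_mul_self G
    simpa using this
  set b := hS.eigenvectorBasis with hb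
  have hmv : ∀ j, Matrix.mulVec (G.transpose * G) (b j : κ → ℝ) = hS.eigenvalues j • (b j : κ → ℝ) :=
    fun j => hS.mulVec_eigenvectorBasis j
  have h1 : ∀ j m, ∑ l, (∑ m', G l m' * b j m') * G l m = hS.eigenvalues j * b j m := by
    intro j m
    have := congrFun (hmv j) m
    rw [← Matrix.mulVec_mulVec] at this
    simp only [Matrix.mulVec, dotProduct, Matrix.transpose_apply, Pi.smul_apply, smul_eq_mul] at this
    rw [← this]
    apply Finset.sum_congr rfl
    intro l _
    ring
  have hnorm : ∀ j, ∑ m, b j m * b j m = 1 := by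
    intro j
    have h := b.orthonormal.1 j
    have h2 : ‖b j‖ ^ 2 = 1 := by rw [h]; norm_num
    rw [EuclideanSpace.norm_sq_eq] at h2
    rw [← h2]
    apply Finset.sum_congr rfl
    intro m _
    rw [Real.norm_eq_abs, sq_abs, sq]
  have h2 : ∀ j, ∑ l, (∑ m, G l m * b j m) ^ 2 = hS.eigenvalues j := by
    intro j
    calc ∑ l, (∑ m, G l m * b j m) ^ 2
        = ∑ l, ∑ m, (∑ m', G l m' * b j m') * (G l m * b j m) := by
          apply Finset.sum_congr rfl
          intro l _
          rw [sq, Finset.mul_sum]
      _ = ∑ m, ∑ l, (∑ m', G l m' * b j m') * (G l m * b j m) := Finset.sum_comm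
      _ = ∑ m, (∑ l, (∑ m', G l m' * b j m') * G l m) * b j m := by
          apply Finset.sum_congr rfl
          intro m _
          rw [Finset.sum_mul]
          apply Finset.sum_congr rfl
          intro l _
          ring
      _ = ∑ m, hS.eigenvalues j * (b j m * b j m) := by
          apply Finset.sum_congr rfl
          intro m _
          rw [h1]
          ring
      _ = _ := by rw [← Finset.mul_sum, hnorm, mul_one]
  have hpos : ∀ j, 0 < hS.eigenvalues j := by
    intro j
    rw [← h2]
    have h0 : 0 ≤ ∑ l, (∑ m, G l m * b j m) ^ 2 := Finset.sum_nonneg fun _ _ => sq_nonneg _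
    refine lt_of_le_of_ne h0 ?_
    intro heq
    have h3 : ∀ l, (∑ m, G l m * b j m) = 0 := by
      intro l
      have := (Finset.sum_eq_zero_iff_of_nonneg (fun _ _ => sq_nonneg _)).1 heq.symm l
        (Finset.mem_univ l)
      exact pow_eq_zero_iff (two_ne_zero) |>.1 this
    have h4 : Matrix.mulVec G (b j : κ → ℝ) = 0 := by
      ext l
      exact h3 l
    have h5 := Matrix.eq_zero_of_mulVec_eq_zero hG h4
    have h6 := hnorm j
    have h7 : ∀ m, b j m = 0 := fun m => congrFun h5 m
    simp [h7] at h6
  refine ⟨b, fun j => Real.sqrt (hS.eigenvalues j), fun j => Real.sqrt_pos.2 (hpos j), ?_, ?_⟩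
  · intro j
    rw [h2, Real.sq_sqrt (hpos j).le]
  · intro j m
    rw [h1, Real.sq_sqrt (hpos j).le]

theorem sum_abs_le_sqrt {κ : Type*} [Fintype κ] (f : κ → ℝ) :
    ∑ l, |f l| ≤ Real.sqrt (Fintype.card κ) * Real.sqrt (∑ l, f l ^ 2) := by
  rw [← Real.sqrt_mul (Nat.cast_nonneg _)]
  apply Real.le_sqrt_of_sq_le
  have := sq_sum_le_card_mul_sum_sq (s := (Finset.univ : Finset κ)) (f := fun l => |f l|)
  simpa [sq_abs] using this

theorem root {ι κ : Type} [Fintype ι] [Fintype κ] [DecidableEq κ] (v : ι → EuclideanSpace ℝ κ)
    (hd : 1 ≤ (Fintype.card κ : ℝ)) :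
    ∃ (b : OrthonormalBasis κ ℝ (EuclideanSpace ℝ κ)) (y : κ → ι → ℝ) (σ : κ → ℝ),
      (∀ l i, |y l i| ≤ 1) ∧ (∀ m, 0 < σ m) ∧
      (∀ m, ∑ i, |∑ m', v i m' * b m m'| ≤ Fintype.card κ * σ m) ∧
      (∀ l m, |∑ i, y l i * (∑ m', v i m' * b m m') - (if l = m then σ l else 0)| ≤
        Real.sqrt (Fintype.card κ)) := by
  classical
  set V : ι ⊕ κ → κ → ℝ := Sum.elim (fun i m => v i m) (fun l m => if l = m then 1 else 0) with hV
  set W0 : κ → ι ⊕ κ → ℝ := fun l => Sum.elim (fun _ => 0) (fun l' => if l = l' then 1 else 0)
    with hW0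
  have hgram0 : gram V W0 = 1 := by
    ext l m
    simp [gram, hV, hW0, Matrix.one_apply]
  obtain ⟨W, hW, hdet, hα⟩ := auerbach V W0 (by
    intro l a
    rcases a with i | l'
    · simp [hW0]
    · simp only [hW0, Sum.elim_inr]
      split_ifs <;> simp) (by rw [hgram0]; simp)
  obtain ⟨b, s, hs, hφ, hφG⟩ := spectral (gram V W) hdet.ne'
  set G := gram V W with hGdef
  set φ : κ → κ → ℝ := fun j l => ∑ m, G l m * b j m with hφdef
  have hsd : 0 < Real.sqrt (Fintype.card κ : ℝ) := Real.sqrt_pos.2 (by linarith)
  have hsd2 : Real.sqrt (Fintype.card κ : ℝ) * Real.sqrt (Fintype.card κ : ℝ) = Fintype.card κ :=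
    Real.mul_self_sqrt (by linarith)
  have hφ1 : ∀ j, ∑ l, |φ j l| ≤ Real.sqrt (Fintype.card κ) * s j := by
    intro j
    have h := sum_abs_le_sqrt (φ j)
    have h2 : ∑ l, φ j l ^ 2 = s j ^ 2 := hφ j
    rw [h2, Real.sqrt_sq (hs j).le] at h
    exact h
  have hVinl : ∀ i m, V (Sum.inl i) m = v i m := fun i m => rfl
  have hVinr : ∀ l m, V (Sum.inr l) m = if l = m then 1 else 0 := fun i m => rfl
  refine ⟨b, fun j i => (∑ l, φ j l * W l (Sum.inl i)) / (Real.sqrt (Fintype.card κ) * s j),
    fun j => s j / Real.sqrt (Fintype.card κ), ?_, fun m => div_pos (hs m) hsd, ?_, ?_⟩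
  · intro j i
    rw [abs_div, abs_of_pos (mul_pos hsd (hs j)), div_le_one (mul_pos hsd (hs j))]
    refine le_trans ?_ (hφ1 j)
    refine (Finset.abs_sum_le_sum_abs _ _).trans ?_
    apply Finset.sum_le_sum
    intro l _
    rw [abs_mul]
    have := hW l (Sum.inl i)
    nlinarith [abs_nonneg (φ j l)]
  · intro m
    set w : ι ⊕ κ → ℝ := Sum.elim
      (fun i => if 0 ≤ ∑ m', v i m' * b m m' then 1 else -1) (fun _ => 0) with hw
    obtain ⟨α, hα1, hα2⟩ := hα w (by
      intro a
      rcases a with i | l'
      · simp only [hw, Sum.elim_inl]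
        split_ifs <;> simp
      · simp [hw])
    have h1 : ∑ i, |∑ m', v i m' * b m m'| = ∑ l, α l * φ m l := by
      calc ∑ i, |∑ m', v i m' * b m m'|
          = ∑ i, w (Sum.inl i) * ∑ m', v i m' * b m m' := by
            apply Finset.sum_congr rfl
            intro i _
            simp only [hw, Sum.elim_inl]
            split_ifs with h
            · rw [abs_of_nonneg h, one_mul]
            · rw [abs_of_neg (not_le.1 h)]
              ring
        _ = ∑ m', (∑ a, w a * V a m') * b m m' := by
            simp only [Fintype.sum_sum_type, hVinl]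
            simp only [hw, Sum.elim_inr, zero_mul, Finset.sum_const_zero, add_zero,
              Finset.mul_sum, Finset.sum_mul]
            rw [Finset.sum_comm]
            apply Finset.sum_congr rfl
            intro m' _
            apply Finset.sum_congr rfl
            intro i _
            ring
        _ = ∑ m', (∑ l, α l * G l m') * b m m' := by
            apply Finset.sum_congr rfl
            intro m' _
            rw [hα2]
        _ = ∑ l, α l * φ m l := by
            simp only [hφdef, Finset.mul_sum, Finset.sum_mul]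
            rw [Finset.sum_comm]
            apply Finset.sum_congr rfl
            intro m' _
            apply Finset.sum_congr rfl
            intro i _
            ring
    rw [h1]
    calc ∑ l, α l * φ m l ≤ ∑ l, |φ m l| := by
          apply Finset.sum_le_sum
          intro l _
          calc α l * φ m l ≤ |α l * φ m l| := le_abs_self _
            _ = |α l| * |φ m l| := abs_mul _ _
            _ ≤ 1 * |φ m l| := by
              apply mul_le_mul_of_nonneg_right (hα1 l) (abs_nonneg _)
            _ = _ := one_mul _
      _ ≤ Real.sqrt (Fintype.card κ) * s m := hφ1 m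
      _ = Fintype.card κ * (s m / Real.sqrt (Fintype.card κ)) := by
          field_simp
          rw [Real.sq_sqrt (by linarith)]
          ring
  · intro j m
    have hc : 0 < Real.sqrt (Fintype.card κ) * s j := mul_pos hsd (hs j)
    set u : κ → ℝ := fun l' => (∑ l, φ j l * W l (Sum.inr l')) / (Real.sqrt (Fintype.card κ) * s j)
      with hu
    have hu1 : ∀ l', |u l'| ≤ 1 := by
      intro l'
      rw [hu]
      simp only
      rw [abs_div, abs_of_pos hc, div_le_one hc]
      refine le_trans ?_ (hφ1 j)
      refine (Finset.abs_sum_le_sum_abs _ _).trans ?_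
      apply Finset.sum_le_sum
      intro l _
      rw [abs_mul]
      have := hW l (Sum.inr l')
      nlinarith [abs_nonneg (φ j l)]
    have horth : ∑ m', b j m' * b m m' = if j = m then 1 else 0 := by
      have h := orthonormal_iff_ite.1 b.orthonormal m j
      rw [PiLp.inner_apply] at h
      simp only [RCLike.inner_apply, conj_trivial] at h
      rw [h]
      simp [eq_comm]
    have hkey : ∀ m', s j ^ 2 * b j m' =
        ∑ i, (∑ l, φ j l * W l (Sum.inl i)) * v i m' + ∑ l, φ j l * W l (Sum.inr m') := by
      intro m'
      rw [← hφG j m']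
      have : ∀ l, G l m' = ∑ i, W l (Sum.inl i) * v i m' + W l (Sum.inr m') := by
        intro l
        rw [hGdef]
        unfold gram
        rw [Fintype.sum_sum_type]
        simp [hVinl, hVinr]
      calc ∑ l, (∑ m', G l m' * b j m') * G l m'
          = ∑ l, φ j l * (∑ i, W l (Sum.inl i) * v i m' + W l (Sum.inr m')) := by
            apply Finset.sum_congr rfl
            intro l _
            rw [this l]
        _ = ∑ l, φ j l * (∑ i, W l (Sum.inl i) * v i m') + ∑ l, φ j l * W l (Sum.inr m') := by
            rw [← Finset.sum_add_distrib]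
            apply Finset.sum_congr rfl
            intro l _
            ring
        _ = _ := by
            congr 1
            simp only [Finset.mul_sum, Finset.sum_mul]
            rw [Finset.sum_comm]
            apply Finset.sum_congr rfl
            intro i _
            apply Finset.sum_congr rfl
            intro l _
            ring
    have hkey2 : (if j = m then s j ^ 2 else 0) =
        ∑ i, (∑ l, φ j l * W l (Sum.inl i)) * (∑ m', v i m' * b m m') +
          ∑ l', (∑ l, φ j l * W l (Sum.inr l')) * b m l' := by
      calc (if j = m then s j ^ 2 else 0) = ∑ m', (s j ^ 2 * b j m') * b m m' := by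
            have : ∑ m', (s j ^ 2 * b j m') * b m m' = s j ^ 2 * ∑ m', b j m' * b m m' := by
              rw [Finset.mul_sum]
              apply Finset.sum_congr rfl
              intro m' _
              ring
            rw [this, horth]
            split_ifs <;> simp
        _ = ∑ m', (∑ i, (∑ l, φ j l * W l (Sum.inl i)) * v i m' +
              ∑ l, φ j l * W l (Sum.inr m')) * b m m' := by
            apply Finset.sum_congr rfl
            intro m' _
            rw [hkey]
        _ = ∑ m', (∑ i, (∑ l, φ j l * W l (Sum.inl i)) * v i m') * b m m' +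
              ∑ l', (∑ l, φ j l * W l (Sum.inr l')) * b m l' := by
            rw [← Finset.sum_add_distrib]
            apply Finset.sum_congr rfl
            intro m' _
            ring
        _ = _ := by
            congr 1
            simp only [Finset.mul_sum]
            rw [Finset.sum_comm]
            apply Finset.sum_congr rfl
            intro m' _
            rw [Finset.sum_mul]
            apply Finset.sum_congr rfl
            intro i _
            ring
    have hfinal : ∑ i, (∑ l, φ j l * W l (Sum.inl i)) / (Real.sqrt (Fintype.card κ) * s j) *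
        (∑ m', v i m' * b m m') - (if j = m then s j / Real.sqrt (Fintype.card κ) else 0) =
        - ∑ l', u l' * b m l' := by
      have h1 : ∑ i, (∑ l, φ j l * W l (Sum.inl i)) / (Real.sqrt (Fintype.card κ) * s j) *
          (∑ m', v i m' * b m m') = (∑ i, (∑ l, φ j l * W l (Sum.inl i)) *
          (∑ m', v i m' * b m m')) / (Real.sqrt (Fintype.card κ) * s j) := by
        rw [Finset.sum_div]
        apply Finset.sum_congr rfl
        intro i _
        ring
      have h2 : ∑ l', u l' * b m l' = (∑ l', (∑ l, φ j l * W l (Sum.inr l')) * b m l') /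
          (Real.sqrt (Fintype.card κ) * s j) := by
        rw [Finset.sum_div]
        apply Finset.sum_congr rfl
        intro i _
        rw [hu]
        ring
      have h3 : (if j = m then s j / Real.sqrt (Fintype.card κ) else 0) =
          (if j = m then s j ^ 2 else 0) / (Real.sqrt (Fintype.card κ) * s j) := by
        split_ifs
        · have := (hs j).ne'
          field_simp
        · simp
      rw [h1, h2, h3, hkey2]
      ring
    rw [hfinal, abs_neg]
    have hb2 : ∑ l', (b m l') ^ 2 = 1 := by
      have h := b.orthonormal.1 m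
      have h2 : ‖b m‖ ^ 2 = 1 := by rw [h]; norm_num
      rw [EuclideanSpace.norm_sq_eq] at h2
      rw [← h2]
      apply Finset.sum_congr rfl
      intro m _
      rw [Real.norm_eq_abs, sq_abs]
    calc |∑ l', u l' * b m l'| ≤ ∑ l', |u l' * b m l'| := Finset.abs_sum_le_sum_abs _ _
      _ ≤ ∑ l', |b m l'| := by
          apply Finset.sum_le_sum
          intro l' _
          rw [abs_mul]
          have := hu1 l'
          nlinarith [abs_nonneg (b m l')]
      _ ≤ Real.sqrt (Fintype.card κ) * Real.sqrt (∑ l', (b m l') ^ 2) :=
          sum_abs_le_sqrt (fun l' => b m l')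
      _ = Real.sqrt (Fintype.card κ) := by rw [hb2]; simp

end Vale.Agent.P262
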