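import Vale.Agent.P262.Tree
import Vale.Agent.P262.Root

open scoped BigOperators

namespace Vale.Agent.P262

noncomputable def Eof (d : ℝ) : ℝ := 8 * Real.log (2 * (d + 1) ^ 2) + 1 / 2

theorem half_le_log {d : ℝ} (hd : 1 ≤ d) : 1 / 2 ≤ Real.log (d + 1) := by
  have h1 : Real.log 2 ≤ Real.log (d + 1) := Real.log_le_log (by norm_num) (by linarith)
  have h2 := Real.log_two_gt_d9
  linarith

theorem Eof_le {d : ℝ} (hd : 1 ≤ d) : Eof d ≤ 25 * Real.log (d + 1) := by
  unfold Eof
  have h1 := half_le_log hd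
  have h2 : Real.log 2 ≤ Real.log (d + 1) := Real.log_le_log (by norm_num) (by linarith)
  rw [Real.log_mul (by norm_num) (by positivity), Real.log_pow]
  push_cast
  linarith

theorem one_le_Eof {d : ℝ} (hd : 1 ≤ d) : 1 ≤ Eof d := by
  unfold Eof
  have h1 := half_le_log hd
  have h2 := Real.log_two_gt_d9
  rw [Real.log_mul (by norm_num) (by positivity), Real.log_pow]
  push_cast
  linarith

theorem exists_lam (d : ℕ) (hd : 1 ≤ d) : ∃ Λ : ℕ,
    (d : ℝ) * (96 * (d : ℝ) ^ 4 * Eof d ^ 2) ≤ 2 ^ Λ ∧ (Λ : ℝ) ≤ 60 * Real.log (d + 1) := by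
  have hd' : (1 : ℝ) ≤ (d : ℝ) := by exact_mod_cast hd
  have hE := Eof_le hd'
  have hE1 := one_le_Eof hd'
  have hl := half_le_log hd'
  have hlog : Real.log ((d : ℝ) + 1) ≤ d := by
    have := Real.log_le_sub_one_of_pos (show (0 : ℝ) < (d : ℝ) + 1 by linarith)
    linarith
  refine ⟨23 + 7 * Nat.log 2 (d + 1), ?_, ?_⟩
  · have h1 : (d : ℝ) + 1 ≤ 2 ^ (Nat.log 2 (d + 1) + 1) := by
      have := (Nat.lt_pow_succ_log_self (b := 2) (by norm_num) (d + 1)).le
      exact_mod_cast this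
    have h2 : (d : ℝ) ≤ 2 ^ (Nat.log 2 (d + 1) + 1) := by linarith
    calc (d : ℝ) * (96 * (d : ℝ) ^ 4 * Eof d ^ 2)
        ≤ (d : ℝ) * (96 * (d : ℝ) ^ 4 * (25 * d) ^ 2) := by
          gcongr
          linarith
      _ = 60000 * (d : ℝ) ^ 7 := by ring
      _ ≤ 2 ^ 16 * (2 ^ (Nat.log 2 (d + 1) + 1)) ^ 7 := by
          gcongr
          norm_num
      _ = 2 ^ (23 + 7 * Nat.log 2 (d + 1)) := by
          rw [← pow_mul, ← pow_add]
          congr 1
          ring
  · have h3 : (2 : ℝ) ^ (Nat.log 2 (d + 1)) ≤ (d : ℝ) + 1 := by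
      have := Nat.pow_log_le_self 2 (x := d + 1) (by omega)
      exact_mod_cast this
    have h4 : (Nat.log 2 (d + 1) : ℝ) * Real.log 2 ≤ Real.log ((d : ℝ) + 1) := by
      rw [← Real.log_pow]
      exact Real.log_le_log (by positivity) h3
    have h5 := Real.log_two_gt_d9
    have h6 : (0 : ℝ) ≤ (Nat.log 2 (d + 1) : ℝ) := Nat.cast_nonneg _
    push_cast
    nlinarith

theorem order {ι κ : Type} [Fintype ι] [DecidableEq ι] [Fintype κ] [DecidableEq κ]
    (hd : 1 ≤ Fintype.card κ) (v : ι → EuclideanSpace ℝ κ) (hv : ∀ i, ‖v i‖ ≤ 1)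
    (h0 : ∑ i, v i = 0) :
    ∃ L : List ι, L.Nodup ∧ L.toFinset = Finset.univ ∧ ∀ L' : List ι, L' <+: L →
      ‖(L'.map v).sum‖ ≤
        2000 * Real.sqrt (Fintype.card κ) * (Real.log ((Fintype.card κ : ℝ) + 1)) ^ 2 := by
  have hd' : (1 : ℝ) ≤ (Fintype.card κ : ℝ) := by exact_mod_cast hd
  obtain ⟨b, y, σ, hy, hσ, hR1, hR2⟩ := root v hd'
  obtain ⟨Λ, hΛ, hΛ2⟩ := exists_lam (Fintype.card κ) hd
  set d : ℝ := (Fintype.card κ : ℝ) with hddef
  have hE1 := one_le_Eof hd'
  have hE25 := Eof_le hd'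
  have hl := half_le_log hd'
  have hs1 : 1 ≤ Real.sqrt d := by rw [Real.one_le_sqrt]; exact hd'
  have hsd : Real.sqrt d ≤ d := by
    rw [Real.sqrt_le_left (by linarith)]
    nlinarith
  have hin : ∀ (x : EuclideanSpace ℝ κ) (m : κ), inner ℝ (b m) x = ∑ m', x m' * b m m' := by
    intro x m
    rw [PiLp.inner_apply]
    simp
  have hpars : ∀ x : EuclideanSpace ℝ κ, ∑ m, (∑ m', x m' * b m m') ^ 2 = ‖x‖ ^ 2 := by
    intro x
    rw [← b.sum_sq_norm_inner_right x]
    apply Finset.sum_congr rfl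
    intro m _
    rw [hin, Real.norm_eq_abs, sq_abs]
  let P : Params ι κ :=
    { v := fun i m => ∑ m', v i m' * b m m'
      y := y
      σ := σ
      E := Eof d
      τ0 := 96 * d ^ 4 * Eof d ^ 2
      τ1 := 8 * d * (Real.sqrt d * Eof d)
      hv := by
        intro i
        rw [hpars]
        have := hv i
        have h2 := norm_nonneg (v i)
        nlinarith
      hy := hy
      hσ := hσ
      hd := hd'
      hE1 := hE1
      hE := le_rfl
      hτ1 := le_rfl
      hτ0 := by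
        have h1 : (1 : ℝ) ≤ d * Eof d := by nlinarith
        have h2 : (0 : ℝ) ≤ 96 * d ^ 3 * Eof d := by positivity
        nlinarith
      hτ01 := by
        have e0 : 0 < Eof d := by linarith
        have h1 : 2 * Eof d * d * (2 * d * (8 * d * (Real.sqrt d * Eof d)) + 4 * Eof d) =
          32 * d ^ 3 * Eof d ^ 2 * Real.sqrt d + 8 * d * Eof d ^ 2 := by ring
        rw [h1]
        have h2 : 32 * d ^ 3 * Eof d ^ 2 * Real.sqrt d ≤ 32 * d ^ 3 * Eof d ^ 2 * d := by
          apply mul_le_mul_of_nonneg_left hsd (by positivity)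
        have h3 : 8 * d * Eof d ^ 2 ≤ 8 * d ^ 4 * Eof d ^ 2 := by
          have : d ≤ d ^ 4 := by
            calc d = d ^ 1 := (pow_one d).symm
              _ ≤ d ^ 4 := pow_le_pow_right₀ hd' (by norm_num)
          gcongr
        have h4 : (0 : ℝ) ≤ d ^ 4 * Eof d ^ 2 := by positivity
        nlinarith }
  have hinv : P.Inv 0 (fun _ => 0) Finset.univ := by
    have hs0 : ∀ m, P.s m 0 = σ m := by
      intro m
      unfold Params.s
      simp [P]
    have hEp := P.E_pos
    refine ⟨?_, ?_, ?_, ?_⟩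
    · intro m
      rw [hs0]
      have h1 : ∑ i, |P.v i m| ≤ d * σ m := hR1 m
      have h2 := P.F_nonneg 0
      have h3 : 0 ≤ 8 * P.E * P.F 0 := by positivity
      have h4 : 0 ≤ d * σ m := mul_nonneg (by linarith) (hσ m).le
      change ∑ i, |P.v i m| ≤ (1 + 8 * P.E * P.F 0) * (d * σ m) + 4 * P.E
      nlinarith [mul_nonneg h3 h4]
    · intro l m _
      have h1 : |∑ i, P.y l i * P.v i m - (if l = m then P.s l 0 else 0)| ≤ Real.sqrt d := by
        rw [hs0]
        exact hR2 l m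
      have h2 := P.F_nonneg 0
      have h3 := P.dd_pos
      have h4 := P.s_pos m 0
      have h5 : 0 ≤ P.s m 0 * (12 * P.dd * P.E * P.F 0) := by positivity
      have h6 : Real.sqrt d ≤ P.ET := by
        change Real.sqrt d ≤ Real.sqrt d * Eof d
        nlinarith
      have h7 := P.ET_pos
      linarith
    · intro m
      rw [P.A_thick m 0 (Nat.zero_le _)]
      simpa using hEp.le
    · intro m
      rw [P.A_thick m 0 (Nat.zero_le _)]
      have : ∑ i, P.v i m = 0 := by
        change ∑ i, ∑ m', v i m' * b m m' = 0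
        rw [Finset.sum_comm]
        apply Finset.sum_eq_zero
        intro m' _
        rw [← Finset.sum_mul]
        have h2 : ∑ i, v i m' = (∑ i, v i) m' := by simp
        rw [h2, h0]
        simp
      rw [this]
      simpa using hEp.le
  obtain ⟨L, hnd, hLu, hL⟩ := P.tree Λ hΛ _ Finset.univ rfl 0 (fun _ => 0) hinv
  refine ⟨L, hnd, hLu, ?_⟩
  intro L' hL'
  have hb : ∀ m, |∑ m', (L'.map v).sum m' * b m m'| ≤ P.Bd Λ := by
    intro m
    have h1 := hL L' hL' m (Nat.zero_le _)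
    rw [zero_add] at h1
    have h2 : ∑ m', (L'.map v).sum m' * b m m' = (L'.map fun i => P.v i m).sum := by
      rw [← hin]
      change _ = (L'.map fun i => ∑ m', v i m' * b m m').sum
      clear h1 hL'
      induction L' with
      | nil => simp
      | cons x t ih =>
        simp only [List.map_cons, List.sum_cons, inner_add_right]
        rw [ih, hin]
    rw [h2]
    exact h1
  have hBd0 : 0 ≤ P.Bd Λ := by
    have : Nonempty κ := Fintype.card_pos_iff.1 hd
    exact (abs_nonneg _).trans (hb this.some)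
  have hBd : P.Bd Λ ≤ 2000 * (Real.log (d + 1)) ^ 2 := by
    change Eof d + (Eof d + 1) * ((Λ : ℝ) + 1) + 1 + 4 * Eof d ≤ _
    have hΛ0 : (0 : ℝ) ≤ Λ := Nat.cast_nonneg _
    set l := Real.log (d + 1)
    have h1 : (Eof d + 1) * ((Λ : ℝ) + 1) ≤ (27 * l) * (62 * l) := by
      apply mul_le_mul <;> linarith
    nlinarith
  have hsq : ‖(L'.map v).sum‖ ^ 2 ≤ (Real.sqrt d * P.Bd Λ) ^ 2 := by
    rw [← hpars]
    calc ∑ m, (∑ m', (L'.map v).sum m' * b m m') ^ 2 ≤ ∑ _m : κ, (P.Bd Λ) ^ 2 := by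
          apply Finset.sum_le_sum
          intro m _
          rw [← sq_abs]
          exact pow_le_pow_left₀ (abs_nonneg _) (hb m) 2
      _ = d * (P.Bd Λ) ^ 2 := by simp [hddef]
      _ = _ := by rw [mul_pow, Real.sq_sqrt (by linarith)]
  have hfin := abs_le_of_sq_le_sq' hsq (by positivity)
  calc ‖(L'.map v).sum‖ ≤ Real.sqrt d * P.Bd Λ := hfin.2
    _ ≤ Real.sqrt d * (2000 * (Real.log (d + 1)) ^ 2) := by gcongr
    _ = _ := by ring

end Vale.Agent.P262
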