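import Vale.Agent.P262.Tree2
import Vale.Agent.P262.Main

open scoped BigOperators

namespace Vale.Agent.P262

noncomputable def Eof2 (d : ℝ) : ℝ := Real.sqrt (2 * Real.log (1024 * (d + 1) ^ 4))

theorem log_two_le {d : ℝ} (hd : 1 ≤ d) : Real.log 2 ≤ Real.log (d + 1) :=
  Real.log_le_log (by norm_num) (by linarith)

theorem Eof2_log {d : ℝ} (hd : 1 ≤ d) :
    Real.log (1024 * (d + 1) ^ 4) = 10 * Real.log 2 + 4 * Real.log (d + 1) := by
  have h : (1024 : ℝ) = 2 ^ 10 := by norm_num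
  rw [Real.log_mul (by norm_num) (by positivity), h, Real.log_pow, Real.log_pow]
  norm_num

theorem Eof2_sq {d : ℝ} (hd : 1 ≤ d) : Eof2 d ^ 2 = 2 * Real.log (1024 * (d + 1) ^ 4) := by
  unfold Eof2
  rw [Real.sq_sqrt]
  rw [Eof2_log hd]
  have h1 := Real.log_two_gt_d9
  have h2 := log_two_le hd
  linarith

theorem Eof2_sq_le {d : ℝ} (hd : 1 ≤ d) : Eof2 d ^ 2 ≤ 28 * Real.log (d + 1) := by
  rw [Eof2_sq hd, Eof2_log hd]
  have h2 := log_two_le hd
  linarith

theorem one_le_Eof2 {d : ℝ} (hd : 1 ≤ d) : 1 ≤ Eof2 d := by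
  unfold Eof2
  rw [Real.one_le_sqrt, Eof2_log hd]
  have h1 := Real.log_two_gt_d9
  have h2 := log_two_le hd
  linarith

theorem exists_lam2 (d : ℕ) (hd : 1 ≤ d) : ∃ Λ : ℕ,
    (d : ℝ) * (2400 * ((d : ℝ) + 1) ^ 5 * Eof2 d ^ 2) ≤ 2 ^ Λ ∧
      (Λ : ℝ) ≤ 45 * Real.log (d + 1) := by
  have hd' : (1 : ℝ) ≤ (d : ℝ) := by exact_mod_cast hd
  have hE := Eof2_sq_le hd'
  have hl := log_two_le hd'
  have hlog : Real.log ((d : ℝ) + 1) ≤ (d : ℝ) + 1 := by
    have := Real.log_le_sub_one_of_pos (show (0 : ℝ) < (d : ℝ) + 1 by linarith)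
    linarith
  refine ⟨24 + 7 * Nat.log 2 (d + 1), ?_, ?_⟩
  · have h1 : (d : ℝ) + 1 ≤ 2 ^ (Nat.log 2 (d + 1) + 1) := by
      have := (Nat.lt_pow_succ_log_self (b := 2) (by norm_num) (d + 1)).le
      exact_mod_cast this
    calc (d : ℝ) * (2400 * ((d : ℝ) + 1) ^ 5 * Eof2 d ^ 2)
        ≤ ((d : ℝ) + 1) * (2400 * ((d : ℝ) + 1) ^ 5 * (28 * ((d : ℝ) + 1))) := by
          gcongr
          · linarith
          · linarith
      _ = 67200 * ((d : ℝ) + 1) ^ 7 := by ring
      _ ≤ 2 ^ 17 * (2 ^ (Nat.log 2 (d + 1) + 1)) ^ 7 := by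
          gcongr
          norm_num
      _ = 2 ^ (24 + 7 * Nat.log 2 (d + 1)) := by
          rw [← pow_mul, ← pow_add]
          congr 1
          ring
  · have h3 : (2 : ℝ) ^ (Nat.log 2 (d + 1)) ≤ (d : ℝ) + 1 := by
      have := Nat.pow_log_le_self 2 (x := d + 1) (by omega)
      exact_mod_cast this
    have h4 : (Nat.log 2 (d + 1) : ℝ) * Real.log 2 ≤ Real.log ((d : ℝ) + 1) := by
      rw [← Real.log_pow]
      exact Real.log_le_log (by positivity) h3
    have h5 := Real.log_two_gt_d9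
    have h6 : (0 : ℝ) ≤ (Nat.log 2 (d + 1) : ℝ) := Nat.cast_nonneg _
    push_cast
    nlinarith

theorem order2 {ι κ : Type} [Fintype ι] [DecidableEq ι] [Fintype κ] [DecidableEq κ]
    (hd : 1 ≤ Fintype.card κ) (v : ι → EuclideanSpace ℝ κ) (hv : ∀ i, ‖v i‖ ≤ 1)
    (h0 : ∑ i, v i = 0) :
    ∃ L : List ι, L.Nodup ∧ L.toFinset = Finset.univ ∧ ∀ L' : List ι, L' <+: L →
      ‖(L'.map v).sum‖ ≤
        64 * Real.sqrt ((Fintype.card κ : ℝ) * Real.log ((Fintype.card κ : ℝ) + 1)) := by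
  have hd' : (1 : ℝ) ≤ (Fintype.card κ : ℝ) := by exact_mod_cast hd
  obtain ⟨b, y, σ, hy, hσ, hR1, hR2⟩ := root v hd'
  obtain ⟨Λ, hΛ, hΛ2⟩ := exists_lam2 (Fintype.card κ) hd
  set d : ℝ := (Fintype.card κ : ℝ) with hddef
  have hE1 := one_le_Eof2 hd'
  have hE28 := Eof2_sq_le hd'
  have hEsq := Eof2_sq hd'
  have hl := log_two_le hd'
  have hl2 := Real.log_two_gt_d9
  have hlog : Real.log (d + 1) ≤ d + 1 := by
    have := Real.log_le_sub_one_of_pos (show (0 : ℝ) < d + 1 by linarith)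
    linarith
  have hs1 : 1 ≤ Real.sqrt d := by rw [Real.one_le_sqrt]; exact hd'
  have hsd : Real.sqrt d ≤ d := by
    rw [Real.sqrt_le_left (by linarith)]
    nlinarith
  have hin : ∀ (x : EuclideanSpace ℝ κ) (m : κ), inner ℝ (b m) x = ∑ m', x m' * b m m' := by
    intro x m
    rw [PiLp.inner_apply]
    simp
  have hpars : ∀ x : EuclideanSpace ℝ κ, ∑ m, (∑ m', x m' * b m m') ^ 2 = ‖x‖ ^ 2 := by
    intro x
    rw [← b.sum_sq_norm_inner_right x]
    apply Finset.sum_congr rfl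
    intro m _
    rw [hin, Real.norm_eq_abs, sq_abs]
  let P : Params2 ι κ :=
    { v := fun i m => ∑ m', v i m' * b m m'
      y := y
      σ := σ
      E := Eof2 d
      τ0 := 2400 * (d + 1) ^ 5 * Eof2 d ^ 2
      τ1 := 8 * d * (Real.sqrt d * Eof2 d)
      ω := 1 / (60 * (d + 1))
      Ψ := 200 * (d + 1) ^ 2
      Λ := Λ
      hv := by
        intro i
        rw [hpars]
        have := hv i
        have h2 := norm_nonneg (v i)
        nlinarith
      hy := hy
      hσ := hσ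
      hd := hd'
      hE1 := hE1
      hω0 := by positivity
      hω := by
        rw [div_le_div_iff₀ (by positivity) (by norm_num)]
        linarith
      hωΨ := by
        have : 16 * (1 / (60 * (d + 1))) ^ 2 * (200 * (d + 1) ^ 2) = 3200 / 3600 := by
          have : d + 1 ≠ 0 := by linarith
          field_simp
          norm_num
        rw [this]
        norm_num
      hE := by
        rw [← hddef, hEsq, mul_div_cancel_left₀ _ (two_ne_zero), Real.exp_log (by positivity)]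
        set n := d + 1 with hn
        have hn2 : 2 ≤ n := by linarith
        have h1 : (1:ℝ) ≤ n ^ 2 / 4 := by nlinarith
        have h2 : d ≤ n ^ 2 / 2 := by nlinarith
        calc 2 * n ^ 2 * (1 + 2 * n ^ 2 + (2 * (200 * n ^ 2) + d))
            ≤ 2 * n ^ 2 * (n ^ 2 / 4 + 2 * n ^ 2 + (2 * (200 * n ^ 2) + n ^ 2 / 2)) := by gcongr
          _ = (3222 / 4) * n ^ 4 := by ring
          _ ≤ 1024 * n ^ 4 := by
            gcongr
            norm_num
      hτ1 := le_rfl
      hτ0 := by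
        rw [← hddef]
        have h1 : d ^ 3 ≤ (d + 1) ^ 5 := by
          calc d ^ 3 ≤ (d + 1) ^ 3 := by gcongr; linarith
            _ ≤ (d + 1) ^ 5 := pow_le_pow_right₀ (by linarith) (by norm_num)
        have h2 : Eof2 d ≤ Eof2 d ^ 2 := by nlinarith
        have h3 : 96 * d ^ 3 * Eof2 d ≤ 2400 * (d + 1) ^ 5 * Eof2 d ^ 2 := by
          gcongr
          norm_num
        exact h3
      hτ01 := by
        rw [← hddef]
        have e0 : 0 < Eof2 d := by linarith
        have hpos : 0 < 60 * (d + 1) := by positivity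
        rw [one_div, inv_mul_eq_div, le_div_iff₀ hpos]
        have h1 : 2 * Eof2 d * d * (2 * d * (8 * d * (Real.sqrt d * Eof2 d)) + 4 * Eof2 d) *
          (60 * (d + 1)) =
          (d + 1) * Eof2 d ^ 2 * (1920 * (d ^ 3 * Real.sqrt d) + 480 * d) := by ring
        rw [h1]
        have h2 : d ^ 3 * Real.sqrt d ≤ (d + 1) ^ 4 := by
          calc d ^ 3 * Real.sqrt d ≤ d ^ 3 * d := by gcongr
            _ = d ^ 4 := by ring
            _ ≤ (d + 1) ^ 4 := by gcongr; linarith
        have h3 : d ≤ (d + 1) ^ 4 := by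
          calc d ≤ (d + 1) ^ 1 := by linarith
            _ ≤ (d + 1) ^ 4 := pow_le_pow_right₀ (by linarith) (by norm_num)
        calc (d + 1) * Eof2 d ^ 2 * (1920 * (d ^ 3 * Real.sqrt d) + 480 * d)
            ≤ (d + 1) * Eof2 d ^ 2 * (1920 * (d + 1) ^ 4 + 480 * (d + 1) ^ 4) := by gcongr
          _ = 2400 * (d + 1) ^ 5 * Eof2 d ^ 2 := by ring
      hΛ := hΛ
      hΨ := by
        rw [← hddef]
        calc d * (Eof2 d ^ 2 + 3 * (Λ : ℝ)) ≤ (d + 1) * (28 * (d + 1) + 3 * (45 * (d + 1))) := by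
              gcongr
              · linarith
              · linarith
              · linarith
          _ ≤ 200 * (d + 1) ^ 2 := by nlinarith }
  have hinv : P.Inv 0 (fun _ => 0) Finset.univ (fun _ => 0) (fun _ => 0) := by
    have hs0 : ∀ m, P.s m 0 = σ m := by
      intro m
      unfold Params2.s
      simp [P]
    have hEp := P.E_pos
    have hsum0 : ∀ m, ∑ i, P.v i m = 0 := by
      intro m
      change ∑ i, ∑ m', v i m' * b m m' = 0
      rw [Finset.sum_comm]
      apply Finset.sum_eq_zero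
      intro m' _
      rw [← Finset.sum_mul]
      have h2 : ∑ i, v i m' = (∑ i, v i) m' := by simp
      rw [h2, h0]
      simp
    have hpsi0 : 0 ≤ P.psi 0 := by
      unfold Params2.psi
      apply Finset.sum_nonneg
      intro m _
      split_ifs
      · positivity
      · exact le_rfl
    refine ⟨?_, ?_, ?_, ?_, ?_, ?_, ?_, ?_⟩
    · intro m
      rw [hs0]
      have h1 : ∑ i, |P.v i m| ≤ d * σ m := hR1 m
      have h2 := P.F_nonneg 0
      have h3 : 0 ≤ 8 * P.E * P.F 0 := by positivity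
      have h4 : 0 ≤ d * σ m := mul_nonneg (by linarith) (hσ m).le
      change ∑ i, |P.v i m| ≤ (1 + 8 * P.E * P.F 0) * (d * σ m) + 4 * P.E
      nlinarith [mul_nonneg h3 h4]
    · intro l m _
      have h1 : |∑ i, P.y l i * P.v i m - (if l = m then P.s l 0 else 0)| ≤ Real.sqrt d := by
        rw [hs0]
        exact hR2 l m
      have h2 := P.F_nonneg 0
      have h3 := P.dd_pos
      have h4 := P.s_pos m 0
      have h5 : 0 ≤ P.s m 0 * (12 * P.dd * P.E * P.F 0) := by positivity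
      have h6 : Real.sqrt d ≤ P.ET := by
        change Real.sqrt d ≤ Real.sqrt d * Eof2 d
        nlinarith
      have h7 := P.ET_pos
      linarith
    · intro m _
      simpa using hEp.le
    · intro m _
      rw [hsum0]
      simpa using hEp.le
    · intro m _
      rfl
    · intro m _
      rw [hsum0, add_zero]
    · simpa using hpsi0
    · simpa using hpsi0
  obtain ⟨L, hnd, hLu, hL⟩ := P.tree _ Finset.univ rfl 0 _ _ _ hinv
  refine ⟨L, hnd, hLu, ?_⟩
  intro L' hL'
  obtain ⟨Q, hQ1, hQ2, -⟩ := hL L' hL'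
  have hx : ∀ m, ∑ m', (L'.map v).sum m' * b m m' = (L'.map fun i => P.v i m).sum := by
    intro m
    rw [← hin]
    change _ = (L'.map fun i => ∑ m', v i m' * b m m').sum
    clear hQ2 hL'
    induction L' with
    | nil => simp
    | cons x t ih =>
      simp only [List.map_cons, List.sum_cons, inner_add_right]
      rw [ih, hin]
  set l := Real.log (d + 1) with hldef
  have hl0 : 0.69 ≤ l := by linarith
  have hEE : P.E = Eof2 d := rfl
  have hPd : P.dd = d := rfl
  have hPL : P.Λ = Λ := rfl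
  rw [hEE, hPd, hPL] at hQ1
  have hsq : ‖(L'.map v).sum‖ ^ 2 ≤ 4096 * (d * l) := by
    rw [← hpars]
    have h1 : ∀ m ∈ (Finset.univ : Finset κ), (∑ m', (L'.map v).sum m' * b m m') ^ 2 ≤
        4 * (Q m) ^ 2 + 4 / 3 * (8 * Eof2 d + 4) ^ 2 := by
      intro m _
      rw [hx]
      have h2 := hQ2 m (Nat.zero_le _)
      rw [zero_add, hEE] at h2
      have h3 := sq_le_sq' (abs_le.1 h2).1 (abs_le.1 h2).2
      set X := (L'.map fun i => P.v i m).sum
      nlinarith [sq_nonneg (3 * Q m - (X - Q m))]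
    refine (Finset.sum_le_sum h1).trans ?_
    rw [Finset.sum_add_distrib, ← Finset.mul_sum, Finset.sum_const, Finset.card_univ, nsmul_eq_mul,
      ← hddef]
    have h4 : (8 * Eof2 d + 4) ^ 2 ≤ 2300 * l := by
      nlinarith [sq_nonneg (Eof2 d - 5)]
    have h5 : d * (Eof2 d ^ 2 + 3 * (Λ : ℝ)) + d * Eof2 d ^ 2 ≤ 191 * (d * l) := by
      have h6 : d * (Eof2 d ^ 2 + 3 * (Λ : ℝ)) + d * Eof2 d ^ 2 ≤
        d * (28 * l + 3 * (45 * l)) + d * (28 * l) := by gcongr
      linarith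
    have h7 : d * (4 / 3 * (8 * Eof2 d + 4) ^ 2) ≤ d * (4 / 3 * (2300 * l)) := by gcongr
    have h8 : 0 ≤ d * l := by positivity
    linarith
  have h9 : 0 ≤ d * l := by positivity
  calc ‖(L'.map v).sum‖ = Real.sqrt (‖(L'.map v).sum‖ ^ 2) := by
        rw [Real.sqrt_sq (norm_nonneg _)]
    _ ≤ Real.sqrt (4096 * (d * l)) := Real.sqrt_le_sqrt hsq
    _ = 64 * Real.sqrt (d * l) := by
        rw [Real.sqrt_mul (by norm_num), show (4096:ℝ) = 64 ^ 2 by norm_num,
          Real.sqrt_sq (by norm_num)]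

end Vale.Agent.P262
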