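import Vale.Agent.P262.Rounding
import Vale.Agent.P262.Lin

open scoped BigOperators

namespace Vale.Agent.P262

structure Params (ι κ : Type) [Fintype κ] [DecidableEq κ] where
  v : ι → κ → ℝ
  y : κ → ι → ℝ
  σ : κ → ℝ
  E : ℝ
  τ0 : ℝ
  τ1 : ℝ
  hv : ∀ i, ∑ m, (v i m) ^ 2 ≤ 1
  hy : ∀ l i, |y l i| ≤ 1
  hσ : ∀ m, 0 < σ m
  hd : 1 ≤ (Fintype.card κ : ℝ)
  hE1 : 1 ≤ E
  hE : 8 * Real.log (2 * ((Fintype.card κ : ℝ) + 1) ^ 2) + 1 / 2 ≤ E
  hτ1 : 8 * (Fintype.card κ : ℝ) * (Real.sqrt (Fintype.card κ) * E) ≤ τ1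
  hτ0 : 96 * (Fintype.card κ : ℝ) ^ 3 * E ≤ τ0
  hτ01 : 2 * E * (Fintype.card κ : ℝ) * (2 * (Fintype.card κ : ℝ) * τ1 + 4 * E) ≤ τ0

namespace Params

variable {ι κ : Type} [Fintype κ] [DecidableEq κ] (P : Params ι κ)

noncomputable def dd (_P : Params ι κ) : ℝ := (Fintype.card κ : ℝ)

theorem one_le_dd : 1 ≤ P.dd := P.hd

theorem dd_pos : 0 < P.dd := lt_of_lt_of_le one_pos P.hd

theorem E_pos : 0 < P.E := lt_of_lt_of_le one_pos P.hE1

noncomputable def ET : ℝ := Real.sqrt P.dd * P.E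

theorem one_le_sqrt : 1 ≤ Real.sqrt P.dd := by
  rw [Real.one_le_sqrt]; exact P.hd

theorem ET_pos : 0 < P.ET :=
  mul_pos (lt_of_lt_of_le one_pos P.one_le_sqrt) P.E_pos

theorem E_le_ET : P.E ≤ P.ET := by
  have := P.one_le_sqrt
  unfold ET
  nlinarith [P.E_pos]

theorem h8 : 8 * P.dd * P.ET ≤ P.τ1 := P.hτ1

theorem τ1_pos : 0 < P.τ1 :=
  lt_of_lt_of_le (mul_pos (mul_pos (by norm_num) P.dd_pos) P.ET_pos) P.h8

theorem h4 : 4 * P.E ≤ P.dd * P.τ1 := by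
  have h1 := P.h8
  have h2 := P.one_le_dd
  have h3 := P.E_le_ET
  have h4 := P.ET_pos
  have h5 := P.E_pos
  have h6 : P.τ1 ≤ P.dd * P.τ1 := by nlinarith [P.τ1_pos]
  nlinarith

theorem h96 : 96 * P.dd ^ 3 * P.E ≤ P.τ0 := P.hτ0

theorem τ0_pos : 0 < P.τ0 :=
  lt_of_lt_of_le (mul_pos (mul_pos (by norm_num) (pow_pos P.dd_pos 3)) P.E_pos) P.h96

theorem h16 : 16 * P.dd * P.E ≤ P.τ0 := by
  have h1 := P.h96
  have h2 := P.one_le_dd
  have h3 : P.dd ≤ P.dd ^ 3 := by nlinarith [mul_pos P.dd_pos P.dd_pos]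
  have h5 := P.E_pos
  nlinarith [mul_nonneg (sub_nonneg.2 h3) h5.le, mul_pos P.dd_pos h5]

theorem h7 : 2 * P.E * P.dd * (2 * P.dd * P.τ1 + 4 * P.E) ≤ P.τ0 := P.hτ01

theorem τ1_le_τ0 : P.τ1 ≤ P.τ0 := by
  have h1 := P.h7
  have h2 := P.one_le_dd
  have h3 := P.hE1
  have h4 := P.τ1_pos
  have h5 := P.E_pos
  have h6 : (1:ℝ) ≤ 2 * P.E * P.dd := by nlinarith
  have h7 : P.τ1 ≤ 2 * P.dd * P.τ1 + 4 * P.E := by nlinarith
  calc P.τ1 ≤ 2 * P.dd * P.τ1 + 4 * P.E := h7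
    _ = 1 * (2 * P.dd * P.τ1 + 4 * P.E) := by ring
    _ ≤ 2 * P.E * P.dd * (2 * P.dd * P.τ1 + 4 * P.E) := by gcongr
    _ ≤ _ := h1

noncomputable def s (m : κ) (k : ℕ) : ℝ := P.σ m / 2 ^ k

theorem s_pos (m : κ) (k : ℕ) : 0 < P.s m k := div_pos (P.hσ m) (by positivity)

theorem s_succ (m : κ) (k : ℕ) : P.s m (k + 1) = P.s m k / 2 := by
  unfold s; rw [pow_succ]; field_simp

theorem s_exists (m : κ) : ∃ k, P.s m k < P.τ0 := by
  obtain ⟨n, hn⟩ := exists_nat_gt (P.σ m / P.τ0)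
  refine ⟨n, ?_⟩
  unfold s
  rw [div_lt_iff₀ (by positivity)]
  rw [div_lt_iff₀ P.τ0_pos] at hn
  have h2 : (n : ℝ) ≤ 2 ^ n := by
    have := (Nat.lt_two_pow_self (n := n)).le
    exact_mod_cast this
  nlinarith [P.τ0_pos]

open Classical in
noncomputable def K (m : κ) : ℕ := Nat.find (P.s_exists m)

theorem s_anti (m : κ) {k l : ℕ} (h : k ≤ l) : P.s m l ≤ P.s m k := by
  unfold s
  apply div_le_div_of_nonneg_left (P.hσ m).le (by positivity)
  exact pow_le_pow_right₀ (by norm_num) h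

theorem lt_K (m : κ) (k : ℕ) : k < P.K m ↔ P.τ0 ≤ P.s m k := by
  classical
  constructor
  · intro h
    have := Nat.find_min (P.s_exists m) h
    exact not_lt.1 this
  · intro h
    by_contra hcon
    push Not at hcon
    have h1 : P.s m (P.K m) < P.τ0 := Nat.find_spec (P.s_exists m)
    have h2 := P.s_anti m hcon
    linarith

theorem s_K (m : κ) : P.s m (P.K m) < P.τ0 := by
  classical
  exact Nat.find_spec (P.s_exists m)

noncomputable def F (k : ℕ) : ℝ := ∑ j, 1 / max (P.s j k) (P.τ0 / 2)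

theorem F_nonneg (k : ℕ) : 0 ≤ P.F k := by
  apply Finset.sum_nonneg
  intro j _
  have := P.s_pos j k
  positivity

theorem F_le (k : ℕ) : P.F k ≤ 2 * P.dd / P.τ0 := by
  unfold F dd
  have h1 : ∀ j ∈ (Finset.univ : Finset κ), 1 / max (P.s j k) (P.τ0 / 2) ≤ 2 / P.τ0 := by
    intro j _
    have h0 := P.τ0_pos
    calc 1 / max (P.s j k) (P.τ0 / 2) ≤ 1 / (P.τ0 / 2) := by
          apply div_le_div_of_nonneg_left zero_le_one (by positivity) (le_max_right _ _)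
      _ = 2 / P.τ0 := by field_simp
  refine (Finset.sum_le_card_nsmul _ _ _ h1).trans (le_of_eq ?_)
  rw [nsmul_eq_mul, Finset.card_univ]
  ring

noncomputable def G (k : ℕ) : ℝ := ∑ m, if k < P.K m then 1 / P.s m k else 0

theorem G_nonneg (k : ℕ) : 0 ≤ P.G k := by
  apply Finset.sum_nonneg
  intro j _
  have := P.s_pos j k
  split_ifs <;> positivity

theorem F_succ (k : ℕ) : P.F k + P.G k ≤ P.F (k + 1) := by
  unfold F G
  rw [← Finset.sum_add_distrib]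
  apply Finset.sum_le_sum
  intro m _
  have hs := P.s_pos m k
  have h0 := P.τ0_pos
  split_ifs with h
  · rw [lt_K] at h
    rw [P.s_succ]
    rw [max_eq_left (by linarith), max_eq_left (by linarith)]
    have : 1 / (P.s m k / 2) = 2 / P.s m k := by field_simp
    rw [this]
    apply le_of_eq
    ring
  · rw [add_zero, P.s_succ]
    apply div_le_div_of_nonneg_left zero_le_one (by positivity)
    apply max_le_max _ le_rfl
    linarith

theorem G_le (k : ℕ) : P.G k ≤ P.dd / P.τ0 := by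
  unfold G dd
  have h1 : ∀ j ∈ (Finset.univ : Finset κ), (if k < P.K j then 1 / P.s j k else 0) ≤ 1 / P.τ0 := by
    intro j _
    have h0 := P.τ0_pos
    split_ifs with h
    · rw [lt_K] at h
      exact div_le_div_of_nonneg_left zero_le_one h0 h
    · positivity
  refine (Finset.sum_le_card_nsmul _ _ _ h1).trans (le_of_eq ?_)
  rw [nsmul_eq_mul, Finset.card_univ]
  ring

noncomputable def A (m : κ) (k : ℕ) : ℝ := P.E + (P.E + 1) * ((k - P.K m : ℕ) : ℝ)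

theorem A_thick (m : κ) (k : ℕ) (h : k ≤ P.K m) : P.A m k = P.E := by
  unfold A
  rw [Nat.sub_eq_zero_of_le h]
  simp

theorem A_succ (m : κ) (k : ℕ) (h : P.K m ≤ k) : P.A m (k + 1) = P.A m k + (P.E + 1) := by
  unfold A
  rw [Nat.succ_sub h]
  push_cast
  ring

theorem A_mono (m : κ) (k : ℕ) : P.A m k ≤ P.A m (k + 1) := by
  rcases le_or_gt (P.K m) k with h | h
  · rw [P.A_succ m k h]
    linarith [P.E_pos]
  · rw [P.A_thick m k h.le, P.A_thick m (k+1) h]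

theorem EF (k : ℕ) : 8 * P.E * P.F k ≤ 1 := by
  have h1 := P.F_le k
  have h2 := P.h16
  have h3 := P.E_pos
  have h4 := P.τ0_pos
  calc 8 * P.E * P.F k ≤ 8 * P.E * (2 * P.dd / P.τ0) := by gcongr
    _ = (16 * P.dd * P.E) / P.τ0 := by ring
    _ ≤ 1 := by rw [div_le_one h4]; exact h2

structure Inv (k : ℕ) (a : κ → ℝ) (B : Finset ι) : Prop where
  var : ∀ m, ∑ i ∈ B, |P.v i m| ≤ (1 + 8 * P.E * P.F k) * (P.dd * P.s m k) + 4 * P.E
  tens : ∀ l m, P.τ1 ≤ P.s m k →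
    |∑ i ∈ B, P.y l i * P.v i m - (if l = m then P.s l k else 0)| ≤
      P.s m k * (12 * P.dd * P.E * P.F k) + 2 * P.ET
  left : ∀ m, |a m| ≤ P.A m k
  right : ∀ m, |a m + ∑ i ∈ B, P.v i m| ≤ P.A m k

theorem abs_v_le (i : ι) (m : κ) : |P.v i m| ≤ 1 := by
  have h1 := P.hv i
  have h2 : (P.v i m) ^ 2 ≤ ∑ m, (P.v i m) ^ 2 :=
    Finset.single_le_sum (f := fun m => (P.v i m) ^ 2) (fun _ _ => sq_nonneg _) (Finset.mem_univ m)
  rw [← sq_le_one_iff_abs_le_one]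
  linarith

end Params

end Vale.Agent.P262
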