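import Mathlib

open scoped BigOperators

namespace Vale.Agent.P262

variable {E : Type*} [NormedAddCommGroup E] [InnerProductSpace ℝ E] [FiniteDimensional ℝ E]

noncomputable def q (H : Submodule ℝ E) (x : E) : ℝ := ‖H.starProjection x‖ ^ 2

theorem q_nonneg (H : Submodule ℝ E) (x : E) : 0 ≤ q H x := sq_nonneg _

theorem q_le (H : Submodule ℝ E) (x : E) : q H x ≤ ‖x‖ ^ 2 := by
  unfold q
  have := H.norm_starProjection_apply_le x
  gcongr

theorem q_mono {H K : Submodule ℝ E} (h : H ≤ K) (x : E) : q H x ≤ q K x := by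
  unfold q
  have h1 : H.starProjection x = H.starProjection (K.starProjection x) := by
    have := Submodule.starProjection_comp_starProjection_of_le h
    calc H.starProjection x = (H.starProjection ∘L K.starProjection) x := by rw [this]
      _ = _ := rfl
  rw [h1]
  have := H.norm_starProjection_apply_le (K.starProjection x)
  gcongr

theorem q_diff {H K : Submodule ℝ E} (h : H ≤ K) (x : E) :
    ‖K.starProjection x - H.starProjection x‖ ^ 2 = q K x - q H x := by
  unfold q
  have h1 : H.starProjection x = H.starProjection (K.starProjection x) := by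
    have := Submodule.starProjection_comp_starProjection_of_le h
    calc H.starProjection x = (H.starProjection ∘L K.starProjection) x := by rw [this]
      _ = _ := rfl
  rw [h1]
  set y := K.starProjection x
  have h2 := Submodule.norm_sq_eq_add_norm_sq_starProjection y H
  rw [Submodule.starProjection_orthogonal_val] at h2
  linarith

theorem inner_sq_le {H K : Submodule ℝ E} (h : H ≤ K) (u x : E) (hu : u ∈ K) :
    (inner ℝ x (u - H.starProjection u)) ^ 2 ≤ (q K x - q H x) * ‖u‖ ^ 2 := by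
  set w := u - H.starProjection u with hw
  have hwH : w ∈ Hᗮ := Submodule.sub_starProjection_mem_orthogonal u
  have hwK : w ∈ K := K.sub_mem hu (h (Submodule.starProjection_apply_mem H u))
  have h1 : inner ℝ x w = inner ℝ (K.starProjection x - H.starProjection x) w := by
    have a1 : inner ℝ (x - K.starProjection x) w = 0 :=
      Submodule.starProjection_inner_eq_zero x w hwK
    have a2 : inner ℝ (H.starProjection x) w = 0 := by
      exact (Submodule.mem_orthogonal _ _).1 hwH _ (Submodule.starProjection_apply_mem H x)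
    rw [inner_sub_left] at a1 ⊢
    linarith
  have h2 : ‖w‖ ≤ ‖u‖ := by
    have h3 := Submodule.norm_sq_eq_add_norm_sq_starProjection u H
    rw [Submodule.starProjection_orthogonal_val] at h3
    have h4 : ‖w‖ ^ 2 ≤ ‖u‖ ^ 2 := by
      rw [h3]; nlinarith [sq_nonneg ‖H.starProjection u‖]
    exact (sq_le_sq₀ (norm_nonneg _) (norm_nonneg _)).1 h4
  rw [h1, ← q_diff h x]
  have h5 := abs_real_inner_le_norm (K.starProjection x - H.starProjection x) w
  calc (inner ℝ (K.starProjection x - H.starProjection x) w) ^ 2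
      = |inner ℝ (K.starProjection x - H.starProjection x) w| ^ 2 := by rw [sq_abs]
    _ ≤ (‖K.starProjection x - H.starProjection x‖ * ‖w‖) ^ 2 := by gcongr
    _ = ‖K.starProjection x - H.starProjection x‖ ^ 2 * ‖w‖ ^ 2 := by ring
    _ ≤ _ := by gcongr

theorem exp_le_one_add {y : ℝ} (hy : -(1/2) ≤ y) : Real.exp (y - y ^ 2) ≤ 1 + y := by
  have hpos : 0 < 1 + y := by linarith
  have key : 1 ≤ Real.exp (-(y - y ^ 2)) * (1 + y) := by
    rcases le_or_gt 0 y with h | h
    · have h1 := Real.add_one_le_exp (-(y - y ^ 2))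
      calc (1:ℝ) ≤ (-(y - y ^ 2) + 1) * (1 + y) := by nlinarith [pow_nonneg h 3]
        _ ≤ _ := by gcongr
    · have ht : 0 ≤ -(y - y ^ 2) := by nlinarith
      have h1 := Real.quadratic_le_exp_of_nonneg ht
      calc (1:ℝ) ≤ (1 + -(y - y ^ 2) + (-(y - y ^ 2)) ^ 2 / 2) * (1 + y) := by
            have h2 : 0 ≤ 1 + y - y ^ 2 + y ^ 3 := by nlinarith [sq_nonneg y, sq_nonneg (y+1/2)]
            nlinarith [mul_nonneg (sq_nonneg y) h2]
        _ ≤ _ := by gcongr
  have h3 : Real.exp (y - y ^ 2) * Real.exp (-(y - y ^ 2)) = 1 := by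
    rw [← Real.exp_add]; simp
  calc Real.exp (y - y ^ 2) = Real.exp (y - y ^ 2) * 1 := by ring
    _ ≤ Real.exp (y - y ^ 2) * (Real.exp (-(y - y ^ 2)) * (1 + y)) := by gcongr
    _ = (Real.exp (y - y ^ 2) * Real.exp (-(y - y ^ 2))) * (1 + y) := by ring
    _ = 1 + y := by rw [h3]; ring

theorem exp_step {δ g Γ x : ℝ} (hδ : |δ| ≤ 2) (hΓ : Γ ≤ 1/64)
    (hg : g ^ 2 ≤ Γ) (hx : |x| ≤ 1) :
    Real.exp (δ * g + 4 * (1 - (x + δ) ^ 2) * Γ) ≤
      Real.exp (4 * (1 - x ^ 2) * Γ) * (1 + δ * (g - 8 * Γ * x)) := by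
  have hΓ0 : 0 ≤ Γ := le_trans (sq_nonneg g) hg
  set s := Real.sqrt Γ with hs
  have hs0 : 0 ≤ s := Real.sqrt_nonneg _
  have hs2 : s ^ 2 = Γ := Real.sq_sqrt hΓ0
  have hs8 : s ≤ 1/8 := by
    by_contra hcon
    push Not at hcon
    nlinarith
  have hgs : |g| ≤ s := by
    rw [hs]; exact Real.abs_le_sqrt hg
  set h := g - 8 * Γ * x with hh
  have habs : |h| ≤ 2 * s := by
    have h1 : |8 * Γ * x| ≤ 8 * Γ := by
      rw [abs_mul, abs_of_nonneg (by positivity : 0 ≤ 8 * Γ)]
      nlinarith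
    have h2 : |h| ≤ |g| + |8 * Γ * x| := by
      rw [hh]; exact abs_sub _ _
    nlinarith
  have hsq : h ^ 2 ≤ 4 * Γ := by
    have := sq_abs h
    nlinarith [abs_nonneg h]
  have hlow : -(1/2) ≤ δ * h := by
    have h1 : |δ * h| ≤ 1/2 := by
      rw [abs_mul]
      nlinarith [abs_nonneg δ, abs_nonneg h]
    linarith [neg_abs_le (δ * h)]
  have h3 := exp_le_one_add hlow
  have h4 : δ * g + 4 * (1 - (x + δ) ^ 2) * Γ ≤ 4 * (1 - x ^ 2) * Γ + (δ * h - (δ * h) ^ 2) := by
    have : (δ * h) ^ 2 ≤ δ ^ 2 * (4 * Γ) := by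
      rw [mul_pow]; gcongr
    rw [hh] at this ⊢
    nlinarith
  calc Real.exp (δ * g + 4 * (1 - (x + δ) ^ 2) * Γ)
      ≤ Real.exp (4 * (1 - x ^ 2) * Γ + (δ * h - (δ * h) ^ 2)) := Real.exp_le_exp.2 h4
    _ = Real.exp (4 * (1 - x ^ 2) * Γ) * Real.exp (δ * h - (δ * h) ^ 2) := by rw [Real.exp_add]
    _ ≤ _ := by gcongr

end Vale.Agent.P262
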