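import Vale.Agent.P262.Step2

open scoped BigOperators

namespace Vale.Agent.P262

namespace Params2

variable {ι κ : Type} [Fintype κ] [DecidableEq κ] (P : Params2 ι κ)

theorem var_le {k : ℕ} {a : κ → ℝ} {B : Finset ι} {a' b' : κ → ℝ} (h : P.Inv k a B a' b') (m : κ) :
    ∑ i ∈ B, |P.v i m| ≤ 2 * (P.dd * P.s m k) + 4 * P.E := by
  have h1 := h.var m
  have h2 := P.EF k
  have h3 := P.s_pos m k
  have h4 := P.dd_pos
  have h5 : 0 ≤ P.dd * P.s m k := by positivity
  nlinarith

theorem var_le3 {k : ℕ} {a : κ → ℝ} {B : Finset ι} {a' b' : κ → ℝ} (h : P.Inv k a B a' b') (m : κ)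
    (hm : P.τ1 ≤ P.s m k) :
    ∑ i ∈ B, |P.v i m| ≤ 3 * (P.dd * P.s m k) := by
  have h1 := P.var_le h m
  have h2 := P.h4
  have h4 := P.dd_pos
  nlinarith

theorem row_bound (k : ℕ) : P.dd * (12 * P.dd * P.E * P.F k + 2 * P.ET / P.τ1) ≤ 1 / 2 := by
  have h1 : P.dd * (12 * P.dd * P.E * P.F k) ≤ 1 / 4 := by
    have h1 := P.F_le k
    have h2 := P.h96
    have h3 := P.E_pos
    have h4 := P.τ0_pos
    have h5 := P.dd_pos
    calc P.dd * (12 * P.dd * P.E * P.F k) ≤ P.dd * (12 * P.dd * P.E * (2 * P.dd / P.τ0)) := by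
          gcongr
      _ = (96 * P.dd ^ 3 * P.E) / P.τ0 * (1/4) := by ring
      _ ≤ 1 * (1/4) := by
          gcongr
          rw [div_le_one h4]; exact h2
      _ = 1 / 4 := by ring
  have h2 : P.dd * (2 * P.ET / P.τ1) ≤ 1 / 4 := by
    have h2 := P.h8
    have h4 := P.τ1_pos
    calc P.dd * (2 * P.ET / P.τ1) = (8 * P.dd * P.ET) / P.τ1 * (1/4) := by ring
      _ ≤ 1 * (1/4) := by
          gcongr
          rw [div_le_one h4]; exact h2
      _ = 1 / 4 := by ring
  rw [mul_add]
  linarith

theorem c_le {k : ℕ} {a : κ → ℝ} {B : Finset ι} {a' b' : κ → ℝ} (h : P.Inv k a B a' b') (m : κ) :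
    k ≤ P.K m → |a m + (∑ i ∈ B, P.v i m) / 2| ≤ P.E := by
  intro hk
  have h1 := abs_le.1 (h.left m hk)
  have h2 := abs_le.1 (h.right m hk)
  rw [abs_le]
  constructor <;> linarith [h1.1, h1.2, h2.1, h2.2]

theorem reset {k : ℕ} {a : κ → ℝ} {B : Finset ι} {a' b' : κ → ℝ} (h : P.Inv k a B a' b') :
    ∃ (yy : ι → ℝ) (η : ℝ), 0 ≤ η ∧ η ≤ 2 * P.E * P.G k ∧ η ≤ 1 / 8 ∧ (∀ i, |yy i| ≤ η) ∧
      (∀ m, k < P.K m → ∑ i ∈ B, yy i * P.v i m = - (a m + (∑ i ∈ B, P.v i m) / 2)) ∧
      (∀ m, ¬ k < P.K m → |∑ i ∈ B, yy i * P.v i m| ≤ P.ω) := by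
  classical
  set c : κ → ℝ := fun m => a m + (∑ i ∈ B, P.v i m) / 2 with hc
  set T : κ → κ → ℝ := fun l m => ∑ i ∈ B, P.y l i * P.v i m with hT
  set M : κ → κ → ℝ := fun l m =>
    if P.τ1 ≤ P.s l k ∧ P.τ1 ≤ P.s m k then T l m / P.s m k else (if l = m then 1 else 0) with hM
  have hrow : ∀ l, ∑ m, |M l m - (if l = m then 1 else 0)| ≤ 1 / 2 := by
    intro l
    have h1 : ∀ m ∈ (Finset.univ : Finset κ), |M l m - (if l = m then 1 else 0)| ≤
        12 * P.dd * P.E * P.F k + 2 * P.ET / P.τ1 := by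
      intro m _
      have hpos : 0 ≤ 12 * P.dd * P.E * P.F k + 2 * P.ET / P.τ1 := by
        have h1 := P.F_nonneg k
        have h3 := P.E_pos
        have h4 := P.τ1_pos
        have h5 := P.dd_pos
        have h6 := P.ET_pos
        positivity
      by_cases hcase : P.τ1 ≤ P.s l k ∧ P.τ1 ≤ P.s m k
      · have hs := P.s_pos m k
        have e : M l m - (if l = m then 1 else 0) =
            (T l m - (if l = m then P.s l k else 0)) / P.s m k := by
          rw [hM]
          simp only
          rw [if_pos hcase]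
          by_cases hlm : l = m
          · subst hlm
            simp only [if_true]
            field_simp
          · simp only [hlm, if_false, sub_zero]
        rw [e, abs_div, abs_of_pos hs, div_le_iff₀ hs]
        refine (h.tens l m hcase.2).trans ?_
        have h6 := P.ET_pos
        have h4 := P.τ1_pos
        have h7 : 2 * P.ET ≤ 2 * P.ET / P.τ1 * P.s m k := by
          rw [div_mul_eq_mul_div, le_div_iff₀ h4]
          nlinarith [hcase.2]
        linarith
      · have e : M l m - (if l = m then 1 else 0) = 0 := by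
          rw [hM]
          simp only
          rw [if_neg hcase, sub_self]
        rw [e, abs_zero]
        exact hpos
    refine (Finset.sum_le_card_nsmul _ _ _ h1).trans ?_
    rw [nsmul_eq_mul, Finset.card_univ]
    exact P.row_bound k
  set γ : κ → ℝ := fun m => if k < P.K m then - c m / P.s m k else 0 with hγ
  obtain ⟨β, hβ, hβ1⟩ := near_id M hrow γ
  have hγsum : ∑ m, |γ m| ≤ P.E * P.G k := by
    unfold G
    rw [Finset.mul_sum]
    apply Finset.sum_le_sum
    intro m _
    rw [hγ]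
    simp only
    split_ifs with hk
    · have hs := P.s_pos m k
      rw [abs_div, abs_neg, abs_of_pos hs, div_eq_mul_one_div]
      have h1 : |c m| ≤ P.E := by
        exact P.c_le h m hk.le
      gcongr
    · simp
  set η : ℝ := ∑ l, |β l| with hη
  have hη0 : 0 ≤ η := Finset.sum_nonneg fun _ _ => abs_nonneg _
  have hη1 : η ≤ 2 * P.E * P.G k := by linarith
  have hη2 : η ≤ 2 * P.E * P.dd / P.τ0 := by
    have h1 := P.G_le k
    have h3 := P.E_pos
    calc η ≤ 2 * P.E * P.G k := hη1
      _ ≤ 2 * P.E * (P.dd / P.τ0) := by gcongr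
      _ = _ := by ring
  have hη8 : η ≤ 1 / 8 := by
    have h4 := P.τ0_pos
    refine hη2.trans ?_
    rw [div_le_iff₀ h4]
    linarith [P.h16]
  have hβ0 : ∀ l, ¬ P.τ1 ≤ P.s l k → β l = 0 := by
    intro l hl
    have h1 := hβ l
    have h2 : ∀ l', β l' * M l' l = if l' = l then β l' else 0 := by
      intro l'
      rw [hM]
      simp only
      rw [if_neg (fun hh => hl hh.2)]
      split_ifs <;> simp
    simp only [h2, Finset.sum_ite_eq', Finset.mem_univ, if_true] at h1
    rw [h1, hγ]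
    simp only
    rw [if_neg]
    intro hk
    rw [lt_K] at hk
    exact hl (P.τ1_le_τ0.trans hk)
  set yy : ι → ℝ := fun i => ∑ l, β l * P.y l i with hyy
  have hyy1 : ∀ i, |yy i| ≤ η := by
    intro i
    rw [hyy]
    refine (Finset.abs_sum_le_sum_abs _ _).trans ?_
    rw [hη]
    apply Finset.sum_le_sum
    intro l _
    rw [abs_mul]
    calc |β l| * |P.y l i| ≤ |β l| * 1 := by
          gcongr
          exact P.hy l i
      _ = |β l| := by ring
  have hz : ∀ m, ∑ i ∈ B, yy i * P.v i m = ∑ l, β l * T l m := by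
    intro m
    rw [hyy, hT]
    simp only [Finset.sum_mul, Finset.mul_sum]
    rw [Finset.sum_comm]
    apply Finset.sum_congr rfl
    intro l _
    apply Finset.sum_congr rfl
    intro i _
    ring
  have hzW : ∀ m, P.τ1 ≤ P.s m k → ∑ i ∈ B, yy i * P.v i m = P.s m k * γ m := by
    intro m hm
    rw [hz m, ← hβ m, Finset.mul_sum]
    apply Finset.sum_congr rfl
    intro l _
    by_cases hl : P.τ1 ≤ P.s l k
    · have hs := P.s_pos m k
      rw [hM]
      simp only
      rw [if_pos ⟨hl, hm⟩]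
      field_simp
    · rw [hβ0 l hl]; ring
  refine ⟨yy, η, hη0, hη1, hη8, hyy1, ?_, ?_⟩
  · intro m hk
    have hm : P.τ1 ≤ P.s m k := by
      have hk' := hk
      rw [lt_K] at hk'
      exact P.τ1_le_τ0.trans hk'
    rw [hzW m hm, hγ]
    simp only
    rw [if_pos hk]
    have hs := P.s_pos m k
    have e : P.s m k * (-c m / P.s m k) = - c m := by field_simp
    rw [e]
  · intro m hk
    by_cases hm : P.τ1 ≤ P.s m k
    · rw [hzW m hm, hγ]
      simp only
      rw [if_neg hk, mul_zero, abs_zero]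
      exact P.hω0
    · push Not at hm
      have h1 : |∑ i ∈ B, yy i * P.v i m| ≤ η * ∑ i ∈ B, |P.v i m| := by
        refine (Finset.abs_sum_le_sum_abs _ _).trans ?_
        rw [Finset.mul_sum]
        apply Finset.sum_le_sum
        intro i _
        rw [abs_mul]
        gcongr
        exact hyy1 i
      refine h1.trans ?_
      have h2 := P.var_le h m
      have h4 := P.τ0_pos
      have h5 := P.dd_pos
      have h3 := P.E_pos
      calc η * ∑ i ∈ B, |P.v i m| ≤ (2 * P.E * P.dd / P.τ0) * (2 * (P.dd * P.τ1) + 4 * P.E) := by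
            apply mul_le_mul hη2 _ (Finset.sum_nonneg fun _ _ => abs_nonneg _) (by positivity)
            refine h2.trans ?_
            gcongr
        _ = (2 * P.E * P.dd * (2 * P.dd * P.τ1 + 4 * P.E)) / P.τ0 := by ring
        _ ≤ P.ω := by
            rw [div_le_iff₀ h4]; exact P.h7'

end Params2

end Vale.Agent.P262
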