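import Vale.Agent.P262.Walk

open scoped BigOperators

namespace Vale.Agent.P262

theorem rounding {ι κ : Type*} [DecidableEq ι] [Fintype κ] [DecidableEq κ]
    (A : Finset ι) (u : ι → EuclideanSpace ℝ κ) (hu : ∀ i, ‖u i‖ ≤ 2) (x : ι → ℝ)
    (hx : ∀ i ∈ A, 0 ≤ x i ∧ x i ≤ 1) :
    ∃ R : Finset ι, R ⊆ A ∧ ∀ l : κ,
      |∑ i ∈ A, ((if i ∈ R then 1 else 0) - x i) * u i l| ≤
        8 * Real.log (2 * (Fintype.card κ : ℝ)) + 1 / 2 := by
  classical
  rcases isEmpty_or_nonempty κ with hκ | hκ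
  · exact ⟨∅, Finset.empty_subset _, fun l => (hκ.false l).elim⟩
  have hcard : (1:ℝ) ≤ (Fintype.card κ : ℝ) := by
    exact_mod_cast Fintype.card_pos
  have hlog : 0 ≤ Real.log (2 * (Fintype.card κ : ℝ)) := Real.log_nonneg (by linarith)
  set z : ι → ℝ := fun i => 2 * x i - 1 with hz
  set A' : Finset ι := A.filter (fun i => |z i| < 1) with hA'
  have hA'A : A' ⊆ A := Finset.filter_subset _ _
  have hfrozen : ∀ i ∈ A, i ∉ A' → (z i = 1 ∨ z i = -1) := by
    intro i hi hi'
    have h1 : |z i| ≤ 1 := by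
      rw [abs_le, hz]
      constructor <;> simp only <;> linarith [(hx i hi).1, (hx i hi).2]
    have h2 : ¬ |z i| < 1 := by
      intro h; exact hi' (Finset.mem_filter.2 ⟨hi, h⟩)
    have h3 : |z i| = 1 := le_antisymm h1 (not_lt.1 h2)
    exact eq_or_eq_neg_of_abs_eq h3
  -- it suffices to find signs
  suffices hmain : ∃ ε : ι → ℝ, (∀ i ∈ A, ε i = 1 ∨ ε i = -1) ∧ ∀ l : κ,
      |∑ i ∈ A, (ε i - z i) * (u i l / 2)| ≤ 8 * Real.log (2 * (Fintype.card κ : ℝ)) + 1 / 2 by
    obtain ⟨ε, hε, hb⟩ := hmain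
    refine ⟨A.filter (fun i => ε i = 1), Finset.filter_subset _ _, ?_⟩
    intro l
    convert hb l using 2
    apply Finset.sum_congr rfl
    intro i hi
    rcases hε i hi with h | h
    · have hm : i ∈ A.filter (fun i => ε i = 1) := Finset.mem_filter.2 ⟨hi, h⟩
      rw [if_pos hm, h, hz]
      ring
    · have hm : i ∉ A.filter (fun i => ε i = 1) := by
        rw [Finset.mem_filter, h]
        norm_num
      rw [if_neg hm, h, hz]
      ring
  rcases A'.eq_empty_or_nonempty with hemp | ⟨p, hp⟩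
  · refine ⟨z, fun i hi => hfrozen i hi (by rw [hemp]; simp), fun l => ?_⟩
    simp only [sub_self, zero_mul, Finset.sum_const_zero, abs_zero]
    linarith
  have hzA' : ∀ i ∈ A', |z i| < 1 := fun i hi => (Finset.mem_filter.1 hi).2
  set v : ι → EuclideanSpace ℝ κ := fun i => (1/2 : ℝ) • u i with hv
  have hv1 : ∀ i, ‖v i‖ ≤ 1 := by
    intro i
    rw [hv]
    simp only
    rw [norm_smul]
    have := hu i
    norm_num
    linarith
  set θ : κ × Bool → EuclideanSpace ℝ κ := fun t =>
    (if t.2 then (1/8 : ℝ) else -(1/8)) • EuclideanSpace.single t.1 (1:ℝ) with hθ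
  have hθ1 : ∀ t ∈ (Finset.univ : Finset (κ × Bool)), ‖θ t‖ ≤ 1/8 := by
    intro t _
    rw [hθ]
    simp only
    rw [norm_smul, PiLp.norm_single]
    split_ifs <;> norm_num
  obtain ⟨ε, hε, hb⟩ := walk v hv1 Finset.univ θ hθ1 A'.card A' rfl p hp z hzA' ⊤
    (fun i _ => Submodule.mem_top) (fun _ => 1) (fun _ => zero_le_one)
  set H : Submodule ℝ (EuclideanSpace ℝ κ) :=
    Submodule.span ℝ (v '' (A'.erase p : Finset ι)) with hH
  have hbound : ∑ t ∈ (Finset.univ : Finset (κ × Bool)), (1:ℝ) * Real.exp (4 * (1 - (z p) ^ 2) *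
          (q ⊤ (θ t) - q H (θ t)) + 4 * q H (θ t)) ≤
      2 * (Fintype.card κ : ℝ) * Real.exp (1/16) := by
    have h1 : ∀ t ∈ (Finset.univ : Finset (κ × Bool)), (1:ℝ) * Real.exp (4 * (1 - (z p) ^ 2) *
          (q ⊤ (θ t) - q H (θ t)) + 4 * q H (θ t)) ≤ Real.exp (1/16) := by
      intro t ht
      rw [one_mul]
      apply Real.exp_le_exp.2
      have hn := hθ1 t ht
      have h2 : ‖θ t‖ ^ 2 ≤ 1/64 := by nlinarith [norm_nonneg (θ t)]
      have h3 := q_le ⊤ (θ t)
      have h4 : q H (θ t) ≤ q ⊤ (θ t) := q_mono le_top (θ t)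
      nlinarith [sq_nonneg (z p), mul_nonneg (sq_nonneg (z p)) (sub_nonneg.2 h4)]
    refine (Finset.sum_le_card_nsmul _ _ _ h1).trans ?_
    rw [nsmul_eq_mul]
    simp only [Finset.card_univ, Fintype.card_prod, Fintype.card_bool, Nat.cast_mul, Nat.cast_ofNat]
    apply le_of_eq
    ring
  have hfinal : ∀ t : κ × Bool, inner ℝ (θ t) (∑ i ∈ A', (ε i - z i) • v i) ≤
      Real.log (2 * (Fintype.card κ : ℝ)) + 1/16 := by
    intro t
    have h1 : Real.exp (inner ℝ (θ t) (∑ i ∈ A', (ε i - z i) • v i)) ≤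
        2 * (Fintype.card κ : ℝ) * Real.exp (1/16) := by
      refine le_trans ?_ (hb.trans hbound)
      have h2 := Finset.single_le_sum (f := fun t => (1:ℝ) *
        Real.exp (inner ℝ (θ t) (∑ i ∈ A', (ε i - z i) • v i)))
        (fun t _ => by positivity) (Finset.mem_univ t)
      simpa using h2
    have h3 := Real.log_le_log (Real.exp_pos _) h1
    rw [Real.log_exp, Real.log_mul (by positivity) (Real.exp_pos _).ne', Real.log_exp] at h3
    exact h3
  refine ⟨fun i => if i ∈ A' then ε i else z i, ?_, ?_⟩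
  · intro i hi
    by_cases h : i ∈ A'
    · simp only [h, if_true]; exact hε i h
    · simp only [h, if_false]; exact hfrozen i hi h
  · intro l
    have hsum : ∑ i ∈ A, ((if i ∈ A' then ε i else z i) - z i) * (u i l / 2) =
        (∑ i ∈ A', (ε i - z i) • v i) l := by
      have h1 : (∑ i ∈ A', (ε i - z i) • v i) l = ∑ i ∈ A', (ε i - z i) * (u i l / 2) := by
        rw [WithLp.ofLp_sum, Finset.sum_apply]
        apply Finset.sum_congr rfl
        intro i _
        simp only [hv, PiLp.smul_apply, smul_eq_mul]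
        ring
      rw [h1]
      symm
      rw [← Finset.sum_subset hA'A]
      · apply Finset.sum_congr rfl
        intro i hi
        rw [if_pos hi]
      · intro i _ hi'
        rw [if_neg hi', sub_self, zero_mul]
    rw [hsum]
    set Y := ∑ i ∈ A', (ε i - z i) • v i with hY
    have ht := hfinal (l, true)
    have hf := hfinal (l, false)
    rw [hθ] at ht hf
    simp only [if_true, Bool.false_eq_true, if_false, inner_smul_left,
      EuclideanSpace.inner_single_left, map_one, one_mul] at ht hf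
    simp only [conj_trivial] at ht hf
    rw [abs_le]
    constructor <;> linarith

end Vale.Agent.P262
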