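import Vale.Agent.P262.Walk2

open scoped BigOperators

namespace Vale.Agent.P262

theorem two_add_sq_le (x : ℝ) : 2 + x ^ 2 ≤ Real.exp x + Real.exp (-x) := by
  wlog h : 0 ≤ x with H
  · have := H (-x) (by linarith)
    rw [neg_neg] at this
    linarith [this, neg_sq x]
  have h1 : x / 2 ≤ Real.sinh (x / 2) := Real.self_le_sinh_iff.2 (by linarith)
  have h2 : Real.exp x + Real.exp (-x) = 2 + 4 * Real.sinh (x / 2) ^ 2 := by
    have e1 : Real.exp x = Real.exp (x / 2) * Real.exp (x / 2) := by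
      rw [← Real.exp_add]; ring_nf
    have e2 : Real.exp (-x) = Real.exp (-(x / 2)) * Real.exp (-(x / 2)) := by
      rw [← Real.exp_add]; ring_nf
    have e3 : Real.exp (x / 2) * Real.exp (-(x / 2)) = 1 := by
      rw [← Real.exp_add]; simp
    rw [Real.sinh_eq, e1, e2]
    linear_combination 2 * e3
  rw [h2]
  nlinarith

theorem exp_half_le : Real.exp (1 / 2) ≤ 1.65 := by
  have h1 : Real.exp (1 / 2) ^ 2 = Real.exp 1 := by
    rw [← Real.exp_nat_mul]; norm_num
  have h2 := Real.exp_one_lt_d9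
  have h3 := Real.exp_pos (1 / 2)
  nlinarith

theorem rounding2 {ι κ : Type*} [DecidableEq ι] [Fintype κ] [DecidableEq κ]
    (A : Finset ι) (u : ι → EuclideanSpace ℝ κ) (hu : ∀ i, ‖u i‖ ≤ 2) (x : ι → ℝ)
    (hx : ∀ i ∈ A, 0 ≤ x i ∧ x i ≤ 1) (T : Finset κ) (c : κ → ℝ) (Ψ E : ℝ)
    (hΨ : ∑ l ∈ T, (c l) ^ 2 ≤ Ψ) (hE0 : 0 < E)
    (hE : 2 * (Fintype.card κ : ℝ) * (1 + 2 * (Fintype.card κ : ℝ) + Ψ) ≤ Real.exp (E ^ 2 / 2)) :
    ∃ R : Finset ι, R ⊆ A ∧ (∀ l : κ,
      |∑ i ∈ A, ((if i ∈ R then 1 else 0) - x i) * u i l| ≤ E) ∧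
      ∑ l ∈ T, ((∑ i ∈ A, ((if i ∈ R then 1 else 0) - x i) * u i l) ^ 2 +
        2 * c l * (∑ i ∈ A, ((if i ∈ R then 1 else 0) - x i) * u i l)) ≤
        1 + 13 / 10 * (T.card : ℝ) := by
  classical
  set z : ι → ℝ := fun i => 2 * x i - 1 with hz
  set A' : Finset ι := A.filter (fun i => |z i| < 1) with hA'
  have hA'A : A' ⊆ A := Finset.filter_subset _ _
  have hfrozen : ∀ i ∈ A, i ∉ A' → (z i = 1 ∨ z i = -1) := by
    intro i hi hi'
    have h1 : |z i| ≤ 1 := by
      rw [abs_le, hz]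
      constructor <;> simp only <;> linarith [(hx i hi).1, (hx i hi).2]
    have h2 : ¬ |z i| < 1 := by
      intro h; exact hi' (Finset.mem_filter.2 ⟨hi, h⟩)
    have h3 : |z i| = 1 := le_antisymm h1 (not_lt.1 h2)
    exact eq_or_eq_neg_of_abs_eq h3
  suffices hmain : ∃ ε : ι → ℝ, (∀ i ∈ A, ε i = 1 ∨ ε i = -1) ∧ (∀ l : κ,
      |∑ i ∈ A, (ε i - z i) * (u i l / 2)| ≤ E) ∧
      ∑ l ∈ T, ((∑ i ∈ A, (ε i - z i) * (u i l / 2)) ^ 2 +
        2 * c l * (∑ i ∈ A, (ε i - z i) * (u i l / 2))) ≤ 1 + 13 / 10 * (T.card : ℝ) by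
    obtain ⟨ε, hε, hb, hb2⟩ := hmain
    have key : ∀ l : κ, ∑ i ∈ A, ((if i ∈ A.filter (fun i => ε i = 1) then 1 else 0) - x i) * u i l =
        ∑ i ∈ A, (ε i - z i) * (u i l / 2) := by
      intro l
      apply Finset.sum_congr rfl
      intro i hi
      rcases hε i hi with h | h
      · have hm : i ∈ A.filter (fun i => ε i = 1) := Finset.mem_filter.2 ⟨hi, h⟩
        rw [if_pos hm, h, hz]
        ring
      · have hm : i ∉ A.filter (fun i => ε i = 1) := by
          rw [Finset.mem_filter, h]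
          norm_num
        rw [if_neg hm, h, hz]
        ring
    refine ⟨A.filter (fun i => ε i = 1), Finset.filter_subset _ _, ?_, ?_⟩
    · intro l
      rw [key]
      exact hb l
    · simp only [key]
      exact hb2
  have hzA' : ∀ i ∈ A', |z i| < 1 := fun i hi => (Finset.mem_filter.1 hi).2
  set v : ι → EuclideanSpace ℝ κ := fun i => (1/2 : ℝ) • u i with hv
  have hv1 : ∀ i, ‖v i‖ ≤ 1 := by
    intro i
    rw [hv]
    simp only
    rw [norm_smul]
    have := hu i
    norm_num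
    linarith
  set D : ℝ := (Fintype.card κ : ℝ) with hD
  have hD0 : 0 ≤ D := Nat.cast_nonneg _
  rcases isEmpty_or_nonempty κ with hκ | hκ
  · refine ⟨fun i => if i ∈ A' then 1 else z i, ?_, fun l => (hκ.false l).elim, ?_⟩
    · intro i hi
      by_cases h : i ∈ A'
      · simp [h]
      · simp only [h, if_false]; exact hfrozen i hi h
    · have : T = ∅ := Finset.eq_empty_of_isEmpty T
      subst this
      simp
  have hDpos : 0 < D := by
    rw [hD]; exact_mod_cast Fintype.card_pos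
  set W : ℝ := Real.exp (-(E ^ 2 / 2)) / (2 * D) with hW
  have hW0 : 0 < W := by positivity
  set θ : (κ × Bool) ⊕ (κ × Bool) → EuclideanSpace ℝ κ := Sum.elim
    (fun t => (if t.2 then E else -E) • EuclideanSpace.single t.1 (1:ℝ))
    (fun t => (if t.2 then (1:ℝ) else -1) • EuclideanSpace.single t.1 (1:ℝ)) with hθ
  set wt : (κ × Bool) ⊕ (κ × Bool) → ℝ := Sum.elim (fun _ => W)
    (fun t => if t.1 ∈ T then 1 else 0) with hwt
  have hwt0 : ∀ t, 0 ≤ wt t := by
    intro t
    rcases t with t | t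
    · exact hW0.le
    · simp only [hwt, Sum.elim_inr]
      split_ifs <;> norm_num
  obtain ⟨ε, hε, hb⟩ := walk2_bound v hv1 Finset.univ θ (fun i => ∑ l ∈ T, 2 * c l * v i l) A' z hzA'
    wt hwt0
  set Y := ∑ i ∈ A', (ε i - z i) • v i with hY
  have hYl : ∀ l, Y l = ∑ i ∈ A', (ε i - z i) * v i l := by
    intro l
    rw [hY, WithLp.ofLp_sum, Finset.sum_apply]
    apply Finset.sum_congr rfl
    intro i _
    simp [PiLp.smul_apply, smul_eq_mul]
  have hlin : ∑ i ∈ A', (∑ l ∈ T, 2 * c l * v i l) * (ε i - z i) = ∑ l ∈ T, 2 * c l * Y l := by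
    simp only [hYl, Finset.sum_mul, Finset.mul_sum]
    rw [Finset.sum_comm]
    apply Finset.sum_congr rfl
    intro l _
    apply Finset.sum_congr rfl
    intro i _
    ring
  have hrhs : ∑ t, wt t * Real.exp (‖θ t‖ ^ 2 / 2) = 1 + 2 * (T.card : ℝ) * Real.exp (1 / 2) := by
    rw [Fintype.sum_sum_type, Fintype.sum_prod_type, Fintype.sum_prod_type]
    simp only [hwt, hθ, Sum.elim_inl, Sum.elim_inr, Fintype.sum_bool, norm_smul, PiLp.norm_single,
      if_true, Bool.false_eq_true, if_false, Real.norm_eq_abs, abs_one, mul_one, one_pow,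
      sq_abs]
    rw [Finset.sum_const, Finset.card_univ, nsmul_eq_mul, ← hD, neg_sq E, neg_sq (1:ℝ), one_pow]
    have h1 : ∑ l : κ, ((if l ∈ T then (1:ℝ) else 0) * Real.exp (1 / 2) +
        (if l ∈ T then (1:ℝ) else 0) * Real.exp (1 / 2)) = 2 * (T.card : ℝ) * Real.exp (1 / 2) := by
      have : ∀ l : κ, ((if l ∈ T then (1:ℝ) else 0) * Real.exp (1 / 2) +
        (if l ∈ T then (1:ℝ) else 0) * Real.exp (1 / 2)) =
        if l ∈ T then 2 * Real.exp (1 / 2) else 0 := by
        intro l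
        split_ifs <;> ring
      simp only [this]
      rw [Finset.sum_ite_mem, Finset.univ_inter, Finset.sum_const, nsmul_eq_mul]
      ring
    rw [h1]
    have h2 : W * Real.exp (E ^ 2 / 2) = 1 / (2 * D) := by
      rw [hW, Real.exp_neg]
      field_simp
    have h3 : D * (W * Real.exp (E ^ 2 / 2) + W * Real.exp (E ^ 2 / 2)) = 1 := by
      rw [h2]; field_simp; norm_num
    rw [h3]
  have hlhs : ∑ t, wt t * Real.exp (inner ℝ (θ t) Y) =
      (∑ l, W * (Real.exp (E * Y l) + Real.exp (-(E * Y l)))) +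
      ∑ l ∈ T, (Real.exp (Y l) + Real.exp (-(Y l))) := by
    rw [Fintype.sum_sum_type, Fintype.sum_prod_type, Fintype.sum_prod_type]
    simp only [hwt, hθ, Sum.elim_inl, Sum.elim_inr, Fintype.sum_bool, if_true, Bool.false_eq_true,
      if_false, inner_smul_left, EuclideanSpace.inner_single_left, map_one, one_mul, conj_trivial]
    congr 1
    · apply Finset.sum_congr rfl
      intro l _
      rw [mul_add]
      congr 3
      ring
    · rw [← Finset.sum_filter_add_sum_filter_not Finset.univ (fun l => l ∈ T)]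
      have h0 : ∑ l ∈ Finset.univ.filter (fun l => ¬ l ∈ T),
          ((if l ∈ T then (1:ℝ) else 0) * Real.exp (Y l) +
          (if l ∈ T then (1:ℝ) else 0) * Real.exp (-1 * Y l)) = 0 := by
        apply Finset.sum_eq_zero
        intro l hl
        rw [Finset.mem_filter] at hl
        simp [hl.2]
      rw [h0, add_zero]
      have hT : Finset.univ.filter (fun l => l ∈ T) = T := by ext; simp
      rw [hT]
      apply Finset.sum_congr rfl
      intro l hl
      rw [if_pos hl]
      ring_nf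
  rw [hlhs, hlin, hrhs] at hb
  have hexp := exp_half_le
  have hcard0 : (0:ℝ) ≤ (T.card : ℝ) := Nat.cast_nonneg _
  have hTD : (T.card : ℝ) ≤ D := by
    rw [hD]; exact_mod_cast T.card_le_univ
  have hquad : ∑ l ∈ T, ((Y l) ^ 2 + 2 * c l * Y l) + 2 * (T.card : ℝ) ≤
      ∑ l ∈ T, (Real.exp (Y l) + Real.exp (-(Y l))) + ∑ l ∈ T, 2 * c l * Y l := by
    rw [← Finset.sum_add_distrib]
    have : ∑ l ∈ T, ((Y l) ^ 2 + 2 * c l * Y l) + 2 * (T.card : ℝ) =
        ∑ l ∈ T, (2 + (Y l) ^ 2 + 2 * c l * Y l) := by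
      have : ∀ l, 2 + (Y l) ^ 2 + 2 * c l * Y l = 2 + ((Y l) ^ 2 + 2 * c l * Y l) := fun l => by ring
      rw [Finset.sum_congr rfl (fun l _ => this l)]
      rw [Finset.sum_add_distrib (f := fun _ => (2:ℝ)), Finset.sum_const, nsmul_eq_mul]
      ring
    rw [this]
    apply Finset.sum_le_sum
    intro l _
    have := two_add_sq_le (Y l)
    linarith
  have hWsum0 : 0 ≤ ∑ l, W * (Real.exp (E * Y l) + Real.exp (-(E * Y l))) :=
    Finset.sum_nonneg fun l _ => by positivity
  have hT1 : ∑ l ∈ T, ((Y l) ^ 2 + 2 * c l * Y l) ≤ 1 + 13 / 10 * (T.card : ℝ) := by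
    nlinarith
  have hlow : -Ψ ≤ ∑ l ∈ T, ((Y l) ^ 2 + 2 * c l * Y l) := by
    have h1 : ∑ l ∈ T, -(c l) ^ 2 ≤ ∑ l ∈ T, ((Y l) ^ 2 + 2 * c l * Y l) := by
      apply Finset.sum_le_sum
      intro l _
      nlinarith [sq_nonneg (Y l + c l)]
    rw [Finset.sum_neg_distrib] at h1
    linarith
  have hsup : ∀ l, |Y l| ≤ E := by
    intro l
    have h1 : W * Real.exp (E * |Y l|) ≤ ∑ l, W * (Real.exp (E * Y l) + Real.exp (-(E * Y l))) := by
      have h2 := Finset.single_le_sum (f := fun l => W * (Real.exp (E * Y l) + Real.exp (-(E * Y l))))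
        (fun l _ => by positivity) (Finset.mem_univ l)
      refine le_trans ?_ h2
      apply mul_le_mul_of_nonneg_left _ hW0.le
      rcases abs_cases (Y l) with h | h
      · rw [h.1]
        linarith [Real.exp_pos (-(E * Y l))]
      · rw [h.1, mul_neg]
        linarith [Real.exp_pos (E * Y l)]
    have h2 : W * Real.exp (E * |Y l|) ≤ 1 + 2 * D + Ψ := by
      nlinarith
    have h3 : Real.exp (E * |Y l|) ≤ Real.exp (E ^ 2) := by
      have e1 : Real.exp (E ^ 2) = Real.exp (E ^ 2 / 2) * Real.exp (E ^ 2 / 2) := by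
        rw [← Real.exp_add]; ring_nf
      have e2 : Real.exp (E * |Y l|) = (W * Real.exp (E * |Y l|)) * (2 * D) * Real.exp (E ^ 2 / 2) := by
        rw [hW, Real.exp_neg]
        field_simp
      rw [e1, e2]
      apply mul_le_mul_of_nonneg_right _ (Real.exp_pos _).le
      refine le_trans ?_ hE
      calc W * Real.exp (E * |Y l|) * (2 * D) ≤ (1 + 2 * D + Ψ) * (2 * D) := by gcongr
        _ = _ := by ring
    rw [Real.exp_le_exp] at h3
    nlinarith
  have hsum : ∀ l, ∑ i ∈ A, ((if i ∈ A' then ε i else z i) - z i) * (u i l / 2) = Y l := by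
    intro l
    rw [hYl]
    symm
    rw [← Finset.sum_subset hA'A]
    · apply Finset.sum_congr rfl
      intro i hi
      rw [if_pos hi, hv]
      simp only [PiLp.smul_apply, smul_eq_mul]
      ring
    · intro i _ hi'
      rw [if_neg hi', sub_self, zero_mul]
  refine ⟨fun i => if i ∈ A' then ε i else z i, ?_, ?_, ?_⟩
  · intro i hi
    by_cases h : i ∈ A'
    · simp only [h, if_true]; exact hε i h
    · simp only [h, if_false]; exact hfrozen i hi h
  · intro l
    simp only [hsum]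
    exact hsup l
  · simp only [hsum]
    exact hT1

end Vale.Agent.P262
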