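import Vale.Agent.P262.Sq

open scoped BigOperators

namespace Vale.Agent.P262

namespace Params2

variable {ι κ : Type} [Fintype κ] [DecidableEq κ] [DecidableEq ι] (P : Params2 ι κ)

theorem var_child {k : ℕ} {V V' η : ℝ} {m : κ} (hη0 : 0 ≤ η) (hη1 : η ≤ 2 * P.E * P.G k)
    (hη8 : η ≤ 1 / 8)
    (hV : V ≤ (1 + 8 * P.E * P.F k) * (P.dd * P.s m k) + 4 * P.E)
    (hV' : V' ≤ (1 / 2 + η) * V + P.E) :
    V' ≤ (1 + 8 * P.E * P.F (k + 1)) * (P.dd * P.s m (k + 1)) + 4 * P.E := by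
  have h1 := P.F_succ k
  have h2 := P.EF k
  have hE := P.E_pos
  have hF := P.F_nonneg k
  have hs : P.s m (k + 1) = P.s m k / 2 := P.s_succ m k
  have hD : 0 < P.dd * P.s m (k + 1) := mul_pos P.dd_pos (P.s_pos m (k+1))
  set D := P.dd * P.s m (k + 1) with hDdef
  have hDs : P.dd * P.s m k = 2 * D := by
    rw [hDdef, hs]; ring
  rw [hDs] at hV
  have h3 : (1 / 2 + η) * V ≤ (1 / 2 + η) * ((1 + 8 * P.E * P.F k) * (2 * D) + 4 * P.E) := by
    gcongr
  have h4 : 4 * η ≤ 8 * P.E * (P.F (k + 1) - P.F k) := by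
    have : 2 * P.E * P.G k ≤ 2 * P.E * (P.F (k + 1) - P.F k) := by
      gcongr
      linarith
    linarith
  have h5 : (1 + 2 * η) * (1 + 8 * P.E * P.F k) ≤ 1 + 8 * P.E * P.F (k + 1) := by
    nlinarith [mul_nonneg hη0 (sub_nonneg.2 h2)]
  calc V' ≤ (1 / 2 + η) * V + P.E := hV'
    _ ≤ (1 / 2 + η) * ((1 + 8 * P.E * P.F k) * (2 * D) + 4 * P.E) + P.E := by linarith
    _ = ((1 + 2 * η) * (1 + 8 * P.E * P.F k)) * D + (3 + 4 * η) * P.E := by ring
    _ ≤ (1 + 8 * P.E * P.F (k + 1)) * D + 4 * P.E := by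
        gcongr
        linarith

theorem tens_child {k : ℕ} {Δ Δ' V η : ℝ} {m : κ}
    (hη1 : η ≤ 2 * P.E * P.G k)
    (hΔ : Δ ≤ P.s m k * (12 * P.dd * P.E * P.F k) + 2 * P.ET)
    (hV : V ≤ 3 * (P.dd * P.s m k)) (hη0 : 0 ≤ η)
    (hΔ' : Δ' ≤ Δ / 2 + η * V + P.ET) :
    Δ' ≤ P.s m (k + 1) * (12 * P.dd * P.E * P.F (k + 1)) + 2 * P.ET := by
  have h1 := P.F_succ k
  have hE := P.E_pos
  have hs : P.s m (k + 1) = P.s m k / 2 := P.s_succ m k
  have hs0 := P.s_pos m k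
  have hd := P.dd_pos
  have h3 : η * V ≤ η * (3 * (P.dd * P.s m k)) := by gcongr
  have h4 : η ≤ 2 * P.E * (P.F (k + 1) - P.F k) := by
    have : 2 * P.E * P.G k ≤ 2 * P.E * (P.F (k + 1) - P.F k) := by
      gcongr
      linarith
    linarith
  have h5 : η * (3 * (P.dd * P.s m k)) ≤
      (2 * P.E * (P.F (k + 1) - P.F k)) * (3 * (P.dd * P.s m k)) := by gcongr
  rw [hs]
  nlinarith

theorem pre_split {k : ℕ} {a : κ → ℝ} {B : Finset ι} {a' b' : κ → ℝ}
    (h : P.Inv k a B a' b') :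
    ∃ (R : Finset ι) (p' : κ → ℝ) (η : ℝ), R ⊆ B ∧ 0 ≤ η ∧ η ≤ 2 * P.E * P.G k ∧ η ≤ 1 / 8 ∧
      |(R.card : ℝ) - (B.card : ℝ) / 2| ≤ (B.card : ℝ) / 8 + P.E ∧
      (∀ m, |∑ i ∈ R, abs (P.v i m) - (∑ i ∈ B, |P.v i m|) / 2| ≤
        η * (∑ i ∈ B, |P.v i m|) + P.E) ∧
      (∀ l m, |∑ i ∈ R, P.y l i * P.v i m - (∑ i ∈ B, P.y l i * P.v i m) / 2| ≤
        η * (∑ i ∈ B, |P.v i m|) + P.ET) ∧
      (∀ m, k < P.K m → |a m + ∑ i ∈ R, P.v i m| ≤ P.E) ∧
      (∑ m, (if P.K m ≤ k + 1 then (p' m) ^ 2 else 0) ≤ P.psi (k + 1)) ∧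
      (∀ m, k < P.K m + P.Λ → p' m = a m + ∑ i ∈ R, P.v i m) ∧
      (∀ m, ¬ k < P.K m + P.Λ → p' m = (a' m + b' m) / 2) := by
  obtain ⟨yy, η, hη0, hη1, hη8, hyy, hW, hnW⟩ := P.reset h
  set x : ι → ℝ := fun i => 1 / 2 + yy i with hx
  have hx01 : ∀ i ∈ B, 0 ≤ x i ∧ x i ≤ 1 := by
    intro i _
    have h1 := abs_le.1 (hyy i)
    rw [hx]
    constructor <;> simp only <;> linarith [h1.1, h1.2]
  set mid : κ → ℝ := fun m => (a' m + b' m) / 2 with hmid
  have hmidsq : ∑ m, (if P.K m ≤ k then (mid m) ^ 2 else 0) ≤ P.psi k :=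
    P.mid_sq k a' b' h.sqA h.sqB
  have hTmid : ∑ m ∈ P.TT k, (mid m) ^ 2 ≤ P.psi k := P.mid_sq_T k mid hmidsq
  have hmidT : ∀ m ∈ P.TT k, mid m = a m + (∑ i ∈ B, P.v i m) / 2 := by
    intro m hm
    have h1 := (P.mem_TT k m).1 hm
    rw [hmid]
    simp only
    rw [h.linkA m h1.2.le, h.linkB m h1.2.le]
    ring
  set r : κ → ℝ := fun m => ∑ i ∈ B, yy i * P.v i m with hr
  have hrT : ∀ m ∈ P.TT k, |r m| ≤ P.ω := by
    intro m hm
    have h1 := (P.mem_TT k m).1 hm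
    exact hnW m (not_lt.2 h1.1)
  have hψ0 : P.psi k ≤ P.Ψ := P.psi_le k
  have hTd : ((P.TT k).card : ℝ) ≤ P.dd := by
    unfold dd
    exact_mod_cast (P.TT k).card_le_univ
  have hω0 := P.hω0
  have hω4 := P.hω
  have hc : ∑ m ∈ P.TT k, (mid m + r m) ^ 2 ≤ 2 * P.Ψ + P.dd := by
    have h1 : ∀ m ∈ P.TT k, (mid m + r m) ^ 2 ≤ 2 * (mid m) ^ 2 + 1 := by
      intro m hm
      have h2 := abs_le.1 (hrT m hm)
      nlinarith [sq_nonneg (mid m - r m)]
    refine (Finset.sum_le_sum h1).trans ?_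
    rw [Finset.sum_add_distrib, ← Finset.mul_sum, Finset.sum_const, nsmul_eq_mul, mul_one]
    linarith
  obtain ⟨R, hRB, hR1, hR2, hR3, hR4, hR5⟩ :=
    P.round_ext B x hx01 (P.TT k) (fun m => mid m + r m) hc
  have hsum : ∀ f : ι → ℝ, ∑ i ∈ B, x i * f i = (∑ i ∈ B, f i) / 2 + ∑ i ∈ B, yy i * f i := by
    intro f
    rw [Finset.sum_div, ← Finset.sum_add_distrib]
    apply Finset.sum_congr rfl
    intro i _
    rw [hx]
    ring
  have hyyf : ∀ f : ι → ℝ, |∑ i ∈ B, yy i * f i| ≤ η * ∑ i ∈ B, |f i| := by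
    intro f
    refine (Finset.abs_sum_le_sum_abs _ _).trans ?_
    rw [Finset.mul_sum]
    apply Finset.sum_le_sum
    intro i _
    rw [abs_mul]
    gcongr
    exact hyy i
  have hpos : ∀ m, k < P.K m → |a m + ∑ i ∈ R, P.v i m| ≤ P.E := by
    intro m hk
    have e1 := hsum (fun i => P.v i m)
    have h0 := hR1 m
    rw [e1] at h0
    have h1 := abs_le.1 h0
    have h2 := hW m hk
    rw [abs_le]
    constructor <;> linarith [h1.1, h1.2]
  refine ⟨R, fun m => if k < P.K m + P.Λ then a m + ∑ i ∈ R, P.v i m else mid m, η, hRB, hη0, hη1,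
    hη8, ?_, ?_, ?_, hpos, ?_, ?_, ?_⟩
  · have e1 := hsum (fun _ => 1)
    have e2 := hyyf (fun _ => 1)
    simp only [mul_one, Finset.sum_const, nsmul_eq_mul, abs_one] at e1 e2
    rw [e1] at hR3
    have h1 := abs_le.1 hR3
    have h2 := abs_le.1 e2
    have h3 : η * (B.card : ℝ) ≤ 1 / 8 * (B.card : ℝ) := by gcongr
    rw [abs_le]
    constructor <;> linarith [h1.1, h1.2, h2.1, h2.2]
  · intro m
    have e1 := hsum (fun i => |P.v i m|)
    have e2 := hyyf (fun i => |P.v i m|)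
    simp only [abs_abs] at e2
    have h0 := hR2 m
    rw [e1] at h0
    have h1 := abs_le.1 h0
    have h2 := abs_le.1 e2
    rw [abs_le]
    constructor <;> linarith [h1.1, h1.2, h2.1, h2.2]
  · intro l m
    have e1 := hsum (fun i => P.y l i * P.v i m)
    have e2 := hyyf (fun i => P.y l i * P.v i m)
    have e3 : ∑ i ∈ B, |P.y l i * P.v i m| ≤ ∑ i ∈ B, |P.v i m| := by
      apply Finset.sum_le_sum
      intro i _
      rw [abs_mul]
      calc |P.y l i| * |P.v i m| ≤ 1 * |P.v i m| := by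
            gcongr
            exact P.hy l i
        _ = _ := by ring
    have e4 : η * ∑ i ∈ B, |P.y l i * P.v i m| ≤ η * ∑ i ∈ B, |P.v i m| := by gcongr
    have h0 := hR4 l m
    rw [e1] at h0
    have h1 := abs_le.1 h0
    have h2 := abs_le.1 e2
    rw [abs_le]
    constructor <;> linarith [h1.1, h1.2, h2.1, h2.2]
  · refine P.sq_new k (fun m => a m + ∑ i ∈ R, P.v i m) mid _ hmidsq ?_ ?_ hpos ?_
    · intro m hk
      exact if_pos hk
    · intro m hk
      exact if_neg hk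
    · refine thin_sum (P.TT k) mid r (fun m => ∑ i ∈ R, P.v i m - ∑ i ∈ B, x i * P.v i m) _
        P.ω P.Ψ hω0 hω4 P.hωΨ (hTmid.trans hψ0) hrT ?_ hR5
      intro m hm
      rw [hmidT m hm, hsum (fun i => P.v i m)]
      ring
  · intro m hk
    exact if_pos hk
  · intro m hk
    exact if_neg hk

theorem split {k : ℕ} {a : κ → ℝ} {B : Finset ι} {a' b' : κ → ℝ} (h : P.Inv k a B a' b')
    (hB : 3 * P.E < (B.card : ℝ)) :
    ∃ (R : Finset ι) (p' : κ → ℝ), R ⊆ B ∧ R.card < B.card ∧ (B \ R).card < B.card ∧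
      P.Inv (k + 1) a R a' p' ∧
      P.Inv (k + 1) (fun m => a m + ∑ i ∈ R, P.v i m) (B \ R) p' b' ∧
      (∀ m, P.K m + P.Λ ≤ k → p' m = (a' m + b' m) / 2) := by
  obtain ⟨R, p', η, hRB, hη0, hη1, hη8, hc1, hvar, htens, hpos, hsq', hp1, hp2⟩ := P.pre_split h
  have hdiff : ∀ f : ι → ℝ, ∑ i ∈ B \ R, f i = ∑ i ∈ B, f i - ∑ i ∈ R, f i := by
    intro f
    rw [← Finset.sum_sdiff hRB]
    ring
  have hcard : (B \ R).card + R.card = B.card := Finset.card_sdiff_add_card_eq_card hRB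
  have hcardR : ((B \ R).card : ℝ) = (B.card : ℝ) - (R.card : ℝ) := by
    rw [← hcard]; push_cast; ring
  have hc2 := abs_le.1 hc1
  have hRcard : R.card < B.card := by
    have : (R.card : ℝ) < (B.card : ℝ) := by linarith [hc2.1, hc2.2]
    exact_mod_cast this
  have hBRcard : (B \ R).card < B.card := by
    have : ((B \ R).card : ℝ) < (B.card : ℝ) := by
      rw [hcardR]; linarith [hc2.1, hc2.2, P.E_pos]
    exact_mod_cast this
  refine ⟨R, p', hRB, hRcard, hBRcard, ?_, ?_, ?_⟩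
  · refine ⟨?_, ?_, ?_, ?_, ?_, ?_, ?_, ?_⟩
    · intro m
      refine P.var_child hη0 hη1 hη8 (h.var m) ?_
      have h1 := abs_le.1 (hvar m)
      linarith [h1.1, h1.2]
    · intro l m hm
      have hs : P.s m (k + 1) = P.s m k / 2 := P.s_succ m k
      have hm' : P.τ1 ≤ P.s m k := by
        have := P.τ1_pos
        rw [hs] at hm
        linarith
      refine P.tens_child hη1 (h.tens l m hm') (P.var_le3 h m hm') hη0 ?_
      have e : ∑ i ∈ R, P.y l i * P.v i m - (if l = m then P.s l (k + 1) else 0) =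
          (∑ i ∈ R, P.y l i * P.v i m - (∑ i ∈ B, P.y l i * P.v i m) / 2) +
          (∑ i ∈ B, P.y l i * P.v i m - (if l = m then P.s l k else 0)) / 2 := by
        rw [P.s_succ l k]
        split_ifs <;> ring
      rw [e]
      refine (abs_add_le _ _).trans ?_
      rw [abs_div, abs_two]
      linarith [htens l m]
    · intro m hk
      exact h.left m (by omega)
    · intro m hk
      exact hpos m (by omega)
    · intro m hk
      exact h.linkA m (by omega)
    · intro m hk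
      exact hp1 m (by omega)
    · exact P.sq_old k a' a h.linkA h.left h.sqA
    · exact hsq'
  · have e : ∀ m, a m + ∑ i ∈ R, P.v i m + ∑ i ∈ B \ R, P.v i m = a m + ∑ i ∈ B, P.v i m := by
      intro m
      rw [hdiff]; ring
    refine ⟨?_, ?_, ?_, ?_, ?_, ?_, ?_, ?_⟩
    · intro m
      refine P.var_child hη0 hη1 hη8 (h.var m) ?_
      have h1 := abs_le.1 (hvar m)
      rw [hdiff]
      linarith [h1.1, h1.2]
    · intro l m hm
      have hs : P.s m (k + 1) = P.s m k / 2 := P.s_succ m k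
      have hm' : P.τ1 ≤ P.s m k := by
        have := P.τ1_pos
        rw [hs] at hm
        linarith
      refine P.tens_child hη1 (h.tens l m hm') (P.var_le3 h m hm') hη0 ?_
      have e : ∑ i ∈ B \ R, P.y l i * P.v i m - (if l = m then P.s l (k + 1) else 0) =
          -(∑ i ∈ R, P.y l i * P.v i m - (∑ i ∈ B, P.y l i * P.v i m) / 2) +
          (∑ i ∈ B, P.y l i * P.v i m - (if l = m then P.s l k else 0)) / 2 := by
        rw [P.s_succ l k, hdiff]
        split_ifs <;> ring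
      rw [e]
      refine (abs_add_le _ _).trans ?_
      rw [abs_div, abs_two, abs_neg]
      linarith [htens l m]
    · intro m hk
      exact hpos m (by omega)
    · intro m hk
      show |a m + ∑ i ∈ R, P.v i m + ∑ i ∈ B \ R, P.v i m| ≤ P.E
      rw [e]
      exact h.right m (by omega)
    · intro m hk
      exact hp1 m (by omega)
    · intro m hk
      show b' m = a m + ∑ i ∈ R, P.v i m + ∑ i ∈ B \ R, P.v i m
      rw [e]
      exact h.linkB m (by omega)
    · exact hsq'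
    · exact P.sq_old k b' (fun m => a m + ∑ i ∈ B, P.v i m) h.linkB h.right h.sqB
  · intro m hk
    exact hp2 m (by omega)

end Params2

end Vale.Agent.P262
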