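import Vale.Agent.P262.Reset2

open scoped BigOperators

namespace Vale.Agent.P262

theorem thin_sum {κ : Type*} (T : Finset κ) (mid r ee p : κ → ℝ) (ω Ψ : ℝ) (hω0 : 0 ≤ ω)
    (hω4 : ω ≤ 1 / 4) (hωΨ : 16 * ω ^ 2 * Ψ ≤ 1) (hmid : ∑ m ∈ T, (mid m) ^ 2 ≤ Ψ)
    (hr : ∀ m ∈ T, |r m| ≤ ω) (hp : ∀ m ∈ T, p m = mid m + r m + ee m)
    (h5 : ∑ m ∈ T, ((ee m) ^ 2 + 2 * (mid m + r m) * ee m) ≤ 1 + 13 / 10 * (T.card : ℝ)) :
    ∑ m ∈ T, (p m) ^ 2 ≤ ∑ m ∈ T, (mid m) ^ 2 + 3 * (T.card : ℝ) := by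
  rcases T.eq_empty_or_nonempty with hemp | hne
  · rw [hemp]; simp
  have hcard1 : (1:ℝ) ≤ (T.card : ℝ) := by
    exact_mod_cast Finset.card_pos.2 hne
  have h1 : ∀ m ∈ T, (p m) ^ 2 ≤ (mid m) ^ 2 + 4 * ω ^ 2 * (mid m) ^ 2 + 5 / 16 +
      ((ee m) ^ 2 + 2 * (mid m + r m) * ee m) := by
    intro m hm
    rw [hp m hm]
    have h2 := hr m hm
    have h3 : 2 * (mid m * r m) ≤ 2 * (|mid m| * ω) := by
      have h31 : mid m * r m ≤ |mid m| * |r m| := by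
        rw [← abs_mul]; exact le_abs_self _
      have h32 : |mid m| * |r m| ≤ |mid m| * ω := by gcongr
      linarith
    have h4 : 2 * (|mid m| * ω) ≤ 4 * ω ^ 2 * (mid m) ^ 2 + 1 / 4 := by
      have := sq_nonneg (2 * ω * |mid m| - 1 / 2)
      have e : |mid m| ^ 2 = (mid m) ^ 2 := sq_abs _
      nlinarith
    have h5 : (r m) ^ 2 ≤ 1 / 16 := by
      have h6 := abs_le.1 h2
      nlinarith
    nlinarith
  refine (Finset.sum_le_sum h1).trans ?_
  rw [Finset.sum_add_distrib, Finset.sum_add_distrib, Finset.sum_add_distrib, ← Finset.mul_sum,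
    Finset.sum_const, nsmul_eq_mul]
  have h2 : 4 * ω ^ 2 * ∑ m ∈ T, (mid m) ^ 2 ≤ 1 / 4 := by
    have h5 : 4 * ω ^ 2 * ∑ m ∈ T, (mid m) ^ 2 ≤ 4 * ω ^ 2 * Ψ := by gcongr
    linarith
  linarith

namespace Params2

variable {ι κ : Type} [Fintype κ] [DecidableEq κ] (P : Params2 ι κ)

theorem mem_TT (k : ℕ) (m : κ) : m ∈ P.TT k ↔ (P.K m ≤ k ∧ k < P.K m + P.Λ) := by
  unfold TT
  simp

theorem mid_sq (k : ℕ) (a' b' : κ → ℝ)
    (hA : ∑ m, (if P.K m ≤ k then (a' m) ^ 2 else 0) ≤ P.psi k)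
    (hB : ∑ m, (if P.K m ≤ k then (b' m) ^ 2 else 0) ≤ P.psi k) :
    ∑ m, (if P.K m ≤ k then ((a' m + b' m) / 2) ^ 2 else 0) ≤ P.psi k := by
  have h1 : ∑ m, (if P.K m ≤ k then ((a' m + b' m) / 2) ^ 2 else 0) ≤
      (∑ m, (if P.K m ≤ k then (a' m) ^ 2 else 0) +
        ∑ m, (if P.K m ≤ k then (b' m) ^ 2 else 0)) / 2 := by
    rw [← Finset.sum_add_distrib, Finset.sum_div]
    apply Finset.sum_le_sum
    intro m _
    split_ifs
    · nlinarith [sq_nonneg (a' m - b' m)]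
    · simp
  linarith

theorem mid_sq_T (k : ℕ) (mid : κ → ℝ)
    (h : ∑ m, (if P.K m ≤ k then (mid m) ^ 2 else 0) ≤ P.psi k) :
    ∑ m ∈ P.TT k, (mid m) ^ 2 ≤ P.psi k := by
  refine le_trans ?_ h
  rw [← Finset.sum_filter]
  apply Finset.sum_le_sum_of_subset_of_nonneg
  · intro m hm
    rw [Finset.mem_filter]
    exact ⟨Finset.mem_univ m, ((P.mem_TT k m).1 hm).1⟩
  · intro m _ _
    positivity

theorem sq_new (k : ℕ) (p mid p' : κ → ℝ)
    (hmid : ∑ m, (if P.K m ≤ k then (mid m) ^ 2 else 0) ≤ P.psi k)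
    (hp1 : ∀ m, k < P.K m + P.Λ → p' m = p m)
    (hp2 : ∀ m, ¬ k < P.K m + P.Λ → p' m = mid m)
    (hpos : ∀ m, k < P.K m → |p m| ≤ P.E)
    (hT : ∑ m ∈ P.TT k, (p m) ^ 2 ≤ ∑ m ∈ P.TT k, (mid m) ^ 2 + 3 * ((P.TT k).card : ℝ)) :
    ∑ m, (if P.K m ≤ k + 1 then (p' m) ^ 2 else 0) ≤ P.psi (k + 1) := by
  refine le_trans ?_ (P.psi_succ k)
  have h1 : ∑ m, (if P.K m ≤ k + 1 then (p' m) ^ 2 else 0) ≤
      ∑ m, (if P.K m ≤ k then (mid m) ^ 2 else 0) +
      (∑ m, (if P.K m = k + 1 then P.E ^ 2 else 0)) +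
      ∑ m, (if m ∈ P.TT k then ((p m) ^ 2 - (mid m) ^ 2) else 0) := by
    rw [← Finset.sum_add_distrib, ← Finset.sum_add_distrib]
    apply Finset.sum_le_sum
    intro m _
    by_cases hA : P.K m ≤ k
    · have hB' : P.K m ≤ k + 1 := by omega
      have hC : ¬ P.K m = k + 1 := by omega
      rw [if_pos hA, if_pos hB', if_neg hC]
      by_cases hD : k < P.K m + P.Λ
      · rw [if_pos ((P.mem_TT k m).2 ⟨hA, hD⟩), hp1 m hD]
        linarith
      · have hnT : m ∉ P.TT k := fun hh => hD ((P.mem_TT k m).1 hh).2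
        rw [if_neg hnT, hp2 m hD]
        linarith
    · have hnT : m ∉ P.TT k := fun hh => hA ((P.mem_TT k m).1 hh).1
      rw [if_neg hA, if_neg hnT]
      by_cases hC : P.K m = k + 1
      · have hB' : P.K m ≤ k + 1 := by omega
        have hk : k < P.K m := by omega
        have hD : k < P.K m + P.Λ := by omega
        rw [if_pos hB', if_pos hC, hp1 m hD]
        have h2 := abs_le.1 (hpos m hk)
        nlinarith
      · have hB' : ¬ P.K m ≤ k + 1 := by omega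
        rw [if_neg hB', if_neg hC]
        simp
  have h2 : ∑ m, (if m ∈ P.TT k then ((p m) ^ 2 - (mid m) ^ 2) else 0) ≤
      3 * ((P.TT k).card : ℝ) := by
    rw [Finset.sum_ite_mem, Finset.univ_inter, Finset.sum_sub_distrib]
    linarith
  linarith

theorem sq_old (k : ℕ) (f g : κ → ℝ) (hfg : ∀ m, k ≤ P.K m + P.Λ → f m = g m)
    (hg : ∀ m, k ≤ P.K m → |g m| ≤ P.E)
    (hf : ∑ m, (if P.K m ≤ k then (f m) ^ 2 else 0) ≤ P.psi k) :
    ∑ m, (if P.K m ≤ k + 1 then (f m) ^ 2 else 0) ≤ P.psi (k + 1) := by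
  refine le_trans ?_ (P.psi_succ k)
  have h1 : ∑ m, (if P.K m ≤ k + 1 then (f m) ^ 2 else 0) ≤
      ∑ m, (if P.K m ≤ k then (f m) ^ 2 else 0) +
      (∑ m, (if P.K m = k + 1 then P.E ^ 2 else 0)) := by
    rw [← Finset.sum_add_distrib]
    apply Finset.sum_le_sum
    intro m _
    by_cases hA : P.K m ≤ k
    · have hB' : P.K m ≤ k + 1 := by omega
      have hC : ¬ P.K m = k + 1 := by omega
      rw [if_pos hA, if_pos hB', if_neg hC]
      linarith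
    · rw [if_neg hA]
      by_cases hC : P.K m = k + 1
      · have hB' : P.K m ≤ k + 1 := by omega
        have hk : k ≤ P.K m := by omega
        have hD : k ≤ P.K m + P.Λ := by omega
        rw [if_pos hB', if_pos hC, hfg m hD]
        have h2 := abs_le.1 (hg m hk)
        nlinarith
      · have hB' : ¬ P.K m ≤ k + 1 := by omega
        rw [if_neg hB', if_neg hC]
        simp
  have h3 : (0:ℝ) ≤ ((P.TT k).card : ℝ) := Nat.cast_nonneg _
  linarith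

end Params2

end Vale.Agent.P262
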