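import Vale.Agent.P262.Params

open scoped BigOperators

namespace Vale.Agent.P262

namespace Params

variable {ι κ : Type} [Fintype κ] [DecidableEq κ] [DecidableEq ι] (P : Params ι κ)

noncomputable def ext (i : ι) : κ ⊕ κ ⊕ Unit ⊕ (κ × κ) → ℝ
  | Sum.inl m => P.v i m
  | Sum.inr (Sum.inl m) => |P.v i m|
  | Sum.inr (Sum.inr (Sum.inl _)) => 1
  | Sum.inr (Sum.inr (Sum.inr (l, m))) => P.y l i * P.v i m / Real.sqrt P.dd

theorem ext_norm (i : ι) : ‖(WithLp.toLp 2 (P.ext i) : EuclideanSpace ℝ _)‖ ≤ 2 := by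
  rw [EuclideanSpace.norm_eq]
  have h4 : (2:ℝ) = Real.sqrt 4 := by
    rw [show (4:ℝ) = 2 ^ 2 by norm_num]; simp
  rw [h4]
  apply Real.sqrt_le_sqrt
  rw [Fintype.sum_sum_type, Fintype.sum_sum_type, Fintype.sum_sum_type, Fintype.sum_prod_type]
  simp only [ext, Real.norm_eq_abs, sq_abs]
  have h1 := P.hv i
  have hsq : Real.sqrt P.dd ^ 2 = P.dd := Real.sq_sqrt P.dd_pos.le
  have h2 : ∑ l, ∑ m, (P.y l i * P.v i m / Real.sqrt P.dd) ^ 2 ≤ 1 := by
    have h3 : ∀ l ∈ (Finset.univ : Finset κ),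
        ∑ m, (P.y l i * P.v i m / Real.sqrt P.dd) ^ 2 ≤ 1 / P.dd := by
      intro l _
      have h5 : ∀ m, (P.y l i * P.v i m / Real.sqrt P.dd) ^ 2 ≤ (P.v i m) ^ 2 * (1 / P.dd) := by
        intro m
        rw [div_pow, hsq, mul_pow]
        have h6 : (P.y l i) ^ 2 ≤ 1 := by
          rw [sq_le_one_iff_abs_le_one]; exact P.hy l i
        have h7 := P.dd_pos
        rw [div_eq_mul_one_div]
        have h8 : 0 ≤ 1 / P.dd := by positivity
        nlinarith [mul_nonneg (sq_nonneg (P.v i m)) h8,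
          mul_nonneg (mul_nonneg (sq_nonneg (P.v i m)) h8) (sub_nonneg.2 h6)]
      calc ∑ m, (P.y l i * P.v i m / Real.sqrt P.dd) ^ 2
          ≤ ∑ m, (P.v i m) ^ 2 * (1 / P.dd) := Finset.sum_le_sum (fun m _ => h5 m)
        _ = (∑ m, (P.v i m) ^ 2) * (1 / P.dd) := by rw [Finset.sum_mul]
        _ ≤ 1 * (1 / P.dd) := by
            have h7 := P.dd_pos
            gcongr
        _ = 1 / P.dd := by ring
    refine (Finset.sum_le_card_nsmul _ _ _ h3).trans (le_of_eq ?_)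
    rw [nsmul_eq_mul, Finset.card_univ]
    have h7 := P.dd_pos
    have : ((Fintype.card κ : ℕ) : ℝ) = P.dd := rfl
    rw [this]
    field_simp
  simp only [Finset.univ_unique, Finset.sum_singleton, one_pow]
  linarith

theorem card_ext : (Fintype.card (κ ⊕ κ ⊕ Unit ⊕ (κ × κ)) : ℝ) = (P.dd + 1) ^ 2 := by
  simp only [Fintype.card_sum, Fintype.card_prod, Fintype.card_unit]
  unfold dd
  push_cast
  ring

theorem round_ext (B : Finset ι) (x : ι → ℝ) (hx : ∀ i ∈ B, 0 ≤ x i ∧ x i ≤ 1) :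
    ∃ R : Finset ι, R ⊆ B ∧
      (∀ m, |∑ i ∈ R, P.v i m - ∑ i ∈ B, x i * P.v i m| ≤ P.E) ∧
      (∀ m, abs ((∑ i ∈ R, |P.v i m|) - ∑ i ∈ B, x i * |P.v i m|) ≤ P.E) ∧
      (|(R.card : ℝ) - ∑ i ∈ B, x i| ≤ P.E) ∧
      (∀ l m, |∑ i ∈ R, P.y l i * P.v i m - ∑ i ∈ B, x i * (P.y l i * P.v i m)| ≤ P.ET) := by
  obtain ⟨R, hRB, hR⟩ := rounding B (fun i => (WithLp.toLp 2 (P.ext i) : EuclideanSpace ℝ _))
    P.ext_norm x hx
  rw [P.card_ext] at hR
  have hE : 8 * Real.log (2 * (P.dd + 1) ^ 2) + 1 / 2 ≤ P.E := P.hE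
  have key : ∀ f : ι → ℝ, ∑ i ∈ B, ((if i ∈ R then 1 else 0) - x i) * f i =
      ∑ i ∈ R, f i - ∑ i ∈ B, x i * f i := by
    intro f
    have h1 : ∑ i ∈ R, f i = ∑ i ∈ B, (if i ∈ R then f i else 0) := by
      rw [← Finset.sum_filter]
      congr 1
      ext i
      simp only [Finset.mem_filter]
      exact ⟨fun h => ⟨hRB h, h⟩, fun h => h.2⟩
    rw [h1, ← Finset.sum_sub_distrib]
    apply Finset.sum_congr rfl
    intro i _
    split_ifs <;> ring
  refine ⟨R, hRB, ?_, ?_, ?_, ?_⟩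
  · intro m
    have h := hR (Sum.inl m)
    simp only [ext] at h
    rw [key (fun i => P.v i m)] at h
    exact h.trans hE
  · intro m
    have h := hR (Sum.inr (Sum.inl m))
    simp only [ext] at h
    rw [key (fun i => |P.v i m|)] at h
    exact h.trans hE
  · have h := hR (Sum.inr (Sum.inr (Sum.inl ())))
    simp only [ext] at h
    rw [key (fun i => 1)] at h
    simp only [mul_one, Finset.sum_const, nsmul_eq_mul] at h
    exact h.trans hE
  · intro l m
    have h := hR (Sum.inr (Sum.inr (Sum.inr (l, m))))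
    simp only [ext] at h
    rw [key (fun i => P.y l i * P.v i m / Real.sqrt P.dd)] at h
    have hs : 0 < Real.sqrt P.dd := lt_of_lt_of_le one_pos P.one_le_sqrt
    have e : ∑ i ∈ R, P.y l i * P.v i m / Real.sqrt P.dd -
        ∑ i ∈ B, x i * (P.y l i * P.v i m / Real.sqrt P.dd) =
        (∑ i ∈ R, P.y l i * P.v i m - ∑ i ∈ B, x i * (P.y l i * P.v i m)) / Real.sqrt P.dd := by
      rw [sub_div, Finset.sum_div, Finset.sum_div]
      congr 1
      apply Finset.sum_congr rfl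
      intro i _
      ring
    rw [e, abs_div, abs_of_pos hs, div_le_iff₀ hs] at h
    unfold ET
    calc _ ≤ _ := h
      _ ≤ P.E * Real.sqrt P.dd := by gcongr
      _ = _ := by ring

end Params

end Vale.Agent.P262
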