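import Vale.Agent.P262.Split

open scoped BigOperators

namespace Vale.Agent.P262

namespace Params

variable {ι κ : Type} [Fintype κ] [DecidableEq κ] [DecidableEq ι] (P : Params ι κ)

noncomputable def Bd (Λ : ℕ) : ℝ := P.E + (P.E + 1) * ((Λ : ℝ) + 1) + 1 + 4 * P.E

theorem s_shift (m : κ) (k j : ℕ) : P.s m (k + j) = P.s m k / 2 ^ j := by
  unfold s; rw [pow_add]; field_simp

theorem sum_map_le (L : List ι) (m : κ) :
    |(L.map fun i => P.v i m).sum| ≤ (L.map fun i => |P.v i m|).sum := by
  induction L with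
  | nil => simp
  | cons x L ih =>
    simp only [List.map_cons, List.sum_cons]
    exact (abs_add_le _ _).trans (by gcongr)

theorem sum_abs_prefix_le {B : Finset ι} {L L' : List ι} (hnd : L.Nodup) (hB : L.toFinset = B)
    (hL' : L' <+: L) (m : κ) :
    (L'.map fun i => |P.v i m|).sum ≤ ∑ i ∈ B, |P.v i m| := by
  obtain ⟨t, rfl⟩ := hL'
  rw [← hB, List.sum_toFinset _ hnd, List.map_append, List.sum_append]
  have : 0 ≤ (t.map fun i => |P.v i m|).sum := by
    apply List.sum_nonneg
    intro x hx
    simp only [List.mem_map] at hx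
    obtain ⟨i, _, rfl⟩ := hx
    exact abs_nonneg _
  linarith

theorem sum_eq_of_list {B : Finset ι} {L : List ι} (hnd : L.Nodup) (hB : L.toFinset = B) (m : κ) :
    (L.map fun i => P.v i m).sum = ∑ i ∈ B, P.v i m := by
  rw [← hB, List.sum_toFinset _ hnd]

theorem tree (Λ : ℕ) (hΛ : P.dd * P.τ0 ≤ 2 ^ Λ) :
    ∀ (n : ℕ) (B : Finset ι), B.card = n → ∀ (k : ℕ) (a : κ → ℝ), P.Inv k a B →
      ∃ L : List ι, L.Nodup ∧ L.toFinset = B ∧ ∀ L' : List ι, L' <+: L → ∀ m,
        k ≤ P.K m + Λ → |a m + (L'.map fun i => P.v i m).sum| ≤ P.Bd Λ := by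
  intro n
  induction n using Nat.strong_induction_on with
  | _ n ih =>
  intro B hBn k a hInv
  have hE := P.hE1
  have hAle : ∀ m, k ≤ P.K m + Λ → P.A m k ≤ P.E + (P.E + 1) * (Λ : ℝ) := by
    intro m hm
    unfold A
    have h1 : ((k - P.K m : ℕ) : ℝ) ≤ (Λ : ℝ) := by
      have : k - P.K m ≤ Λ := by omega
      exact_mod_cast this
    have h2 : 0 ≤ P.E + 1 := by linarith
    nlinarith [mul_le_mul_of_nonneg_left h1 h2]
  by_cases hB : 3 * P.E < (B.card : ℝ)
  · obtain ⟨R, hRB, hRc, hSc, hI1, hI2⟩ := P.split hInv hB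
    obtain ⟨L1, hnd1, hL1, hb1⟩ := ih R.card (hBn ▸ hRc) R rfl (k + 1) a hI1
    obtain ⟨L2, hnd2, hL2, hb2⟩ := ih (B \ R).card (hBn ▸ hSc) (B \ R) rfl (k + 1) _ hI2
    have hdisj : List.Disjoint L1 L2 := by
      intro i hi1 hi2
      have h1 : i ∈ R := by rw [← hL1]; simpa using hi1
      have h2 : i ∈ B \ R := by rw [← hL2]; simpa using hi2
      exact (Finset.mem_sdiff.1 h2).2 h1
    refine ⟨L1 ++ L2, ?_, ?_, ?_⟩
    · exact List.Nodup.append hnd1 hnd2 hdisj
    · rw [List.toFinset_append, hL1, hL2]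
      exact Finset.union_sdiff_of_subset hRB
    · intro L' hL' m hm
      -- general bound for children
      have hchild : ∀ (a' : κ → ℝ) (C : Finset ι) (L : List ι), P.Inv (k + 1) a' C →
          L.Nodup → L.toFinset = C →
          (∀ L' : List ι, L' <+: L → ∀ m, k + 1 ≤ P.K m + Λ →
            |a' m + (L'.map fun i => P.v i m).sum| ≤ P.Bd Λ) →
          ∀ L' : List ι, L' <+: L → |a' m + (L'.map fun i => P.v i m).sum| ≤ P.Bd Λ := by
        intro a' C L hI hnd hLC hb L' hL'
        by_cases hk : k + 1 ≤ P.K m + Λ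
        · exact hb L' hL' m hk
        · have hk' : k = P.K m + Λ := by omega
          have h1 := P.sum_map_le L' m
          have h2 := P.sum_abs_prefix_le hnd hLC hL' m
          have h3 := P.var_le hI m
          have h4 := hI.left m
          have h5 : P.A m (k + 1) = P.E + (P.E + 1) * ((Λ : ℝ) + 1) := by
            unfold A
            have : k + 1 - P.K m = Λ + 1 := by omega
            rw [this]
            push_cast
            ring
          have h6 : P.dd * P.s m (k + 1) ≤ 1 / 2 := by
            have e1 : k + 1 = P.K m + (Λ + 1) := by omega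
            rw [e1, P.s_shift]
            have h7 := P.s_K m
            have h8 : (0:ℝ) < 2 ^ (Λ + 1) := by positivity
            rw [← mul_div_assoc, div_le_iff₀ h8]
            have h9 := P.dd_pos
            have h10 : P.dd * P.s m (P.K m) ≤ P.dd * P.τ0 := by
              gcongr
            calc P.dd * P.s m (P.K m) ≤ P.dd * P.τ0 := h10
              _ ≤ 2 ^ Λ := hΛ
              _ = 1 / 2 * 2 ^ (Λ + 1) := by rw [pow_succ]; ring
          refine (abs_add_le _ _).trans ?_
          unfold Bd
          rw [h5] at h4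
          linarith
      rcases List.prefix_or_prefix_of_prefix hL' (List.prefix_append L1 L2) with h | ⟨L'', rfl⟩
      · exact hchild a R L1 hI1 hnd1 hL1 hb1 L' h
      · have hL'' : L'' <+: L2 := (List.prefix_append_right_inj L1).1 hL'
        have h1 := hchild _ (B \ R) L2 hI2 hnd2 hL2 hb2 L'' hL''
        rw [List.map_append, List.sum_append, P.sum_eq_of_list hnd1 hL1, ← add_assoc]
        exact h1
  · push Not at hB
    refine ⟨B.toList, B.nodup_toList, B.toList_toFinset, ?_⟩
    intro L' hL' m hm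
    have h1 := P.sum_map_le L' m
    have h2 := P.sum_abs_prefix_le B.nodup_toList B.toList_toFinset hL' m
    have h3 : ∑ i ∈ B, |P.v i m| ≤ (B.card : ℝ) := by
      refine (Finset.sum_le_card_nsmul _ _ 1 (fun i _ => P.abs_v_le i m)).trans (le_of_eq ?_)
      rw [nsmul_eq_mul, mul_one]
    have h4 := hInv.left m
    have h5 := hAle m hm
    refine (abs_add_le _ _).trans ?_
    unfold Bd
    linarith

end Params

end Vale.Agent.P262
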