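import Vale.Agent.P262.Split2

open scoped BigOperators

namespace Vale.Agent.P262

namespace Params2

variable {ι κ : Type} [Fintype κ] [DecidableEq κ] [DecidableEq ι] (P : Params2 ι κ)

theorem s_shift (m : κ) (k j : ℕ) : P.s m (k + j) = P.s m k / 2 ^ j := by
  unfold s; rw [pow_add]; field_simp

theorem sum_map_le (L : List ι) (m : κ) :
    |(L.map fun i => P.v i m).sum| ≤ (L.map fun i => |P.v i m|).sum := by
  induction L with
  | nil => simp
  | cons x L ih =>
    simp only [List.map_cons, List.sum_cons]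
    exact (abs_add_le _ _).trans (by gcongr)

theorem sum_abs_prefix_le {B : Finset ι} {L L' : List ι} (hnd : L.Nodup) (hB : L.toFinset = B)
    (hL' : L' <+: L) (m : κ) :
    (L'.map fun i => |P.v i m|).sum ≤ ∑ i ∈ B, |P.v i m| := by
  obtain ⟨t, rfl⟩ := hL'
  rw [← hB, List.sum_toFinset _ hnd, List.map_append, List.sum_append]
  have : 0 ≤ (t.map fun i => |P.v i m|).sum := by
    apply List.sum_nonneg
    intro x hx
    simp only [List.mem_map] at hx
    obtain ⟨i, _, rfl⟩ := hx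
    exact abs_nonneg _
  linarith

theorem sum_eq_of_list {B : Finset ι} {L : List ι} (hnd : L.Nodup) (hB : L.toFinset = B) (m : κ) :
    (L.map fun i => P.v i m).sum = ∑ i ∈ B, P.v i m := by
  rw [← hB, List.sum_toFinset _ hnd]

theorem between_abs {Q x y : ℝ} (h : (Q - x) * (Q - y) ≤ 0) : |Q - x| ≤ |y - x| := by
  rw [← sq_le_sq]
  nlinarith [sq_nonneg (Q - y)]

theorem dead_bound {k : ℕ} {a : κ → ℝ} {B : Finset ι} {a' b' : κ → ℝ} (h : P.Inv k a B a' b')
    {L L' : List ι} (hnd : L.Nodup) (hB : L.toFinset = B) (hL' : L' <+: L) (m : κ)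
    (hk : k = P.K m + P.Λ) {Q : ℝ} (hQ : (Q - a' m) * (Q - b' m) ≤ 0) :
    |a m + (L'.map fun i => P.v i m).sum - Q| ≤ 8 * P.E + 4 := by
  have h1 := P.sum_map_le L' m
  have h2 := P.sum_abs_prefix_le hnd hB hL' m
  have h3 := P.var_le h m
  have h6 : P.dd * P.s m k ≤ 1 := by
    rw [hk, P.s_shift]
    have h7 := P.s_K m
    have h8 : (0:ℝ) < 2 ^ P.Λ := by positivity
    rw [← mul_div_assoc, div_le_iff₀ h8, one_mul]
    have h9 := P.dd_pos
    have h10 : P.dd * P.s m (P.K m) ≤ P.dd * P.τ0 := by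
      gcongr
    exact h10.trans P.hΛ
  have h4 := between_abs hQ
  rw [h.linkA m hk.le, h.linkB m hk.le] at h4
  have h5 : |a m + ∑ i ∈ B, P.v i m - a m| ≤ ∑ i ∈ B, |P.v i m| := by
    have : a m + ∑ i ∈ B, P.v i m - a m = ∑ i ∈ B, P.v i m := by ring
    rw [this]
    exact Finset.abs_sum_le_sum_abs _ _
  have h7 : a m + (L'.map fun i => P.v i m).sum - Q =
      (L'.map fun i => P.v i m).sum - (Q - a m) := by ring
  rw [h7]
  refine (abs_sub _ _).trans ?_
  linarith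

theorem psi_le' (k : ℕ) : P.psi k ≤ P.dd * (P.E ^ 2 + 3 * (P.Λ : ℝ)) := by
  unfold psi
  have h1 : ∀ m ∈ (Finset.univ : Finset κ), (if P.K m ≤ k then
      P.E ^ 2 + 3 * ((min (k - P.K m) P.Λ : ℕ) : ℝ) else 0) ≤ P.E ^ 2 + 3 * (P.Λ : ℝ) := by
    intro m _
    have h2 : ((min (k - P.K m) P.Λ : ℕ) : ℝ) ≤ (P.Λ : ℝ) := by
      exact_mod_cast min_le_right _ _
    split_ifs
    · linarith
    · positivity
  refine (Finset.sum_le_card_nsmul _ _ _ h1).trans (le_of_eq ?_)
  rw [nsmul_eq_mul, Finset.card_univ]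
  rfl

theorem leaf_bound {k : ℕ} {a : κ → ℝ} {B : Finset ι} {a' b' : κ → ℝ} (h : P.Inv k a B a' b') :
    ∑ m, (a' m) ^ 2 ≤ P.dd * (P.E ^ 2 + 3 * (P.Λ : ℝ)) + P.dd * P.E ^ 2 := by
  have h1 : ∑ m, (a' m) ^ 2 ≤ ∑ m, (if P.K m ≤ k then (a' m) ^ 2 else 0) + ∑ _m : κ, P.E ^ 2 := by
    rw [← Finset.sum_add_distrib]
    apply Finset.sum_le_sum
    intro m _
    by_cases hk : P.K m ≤ k
    · rw [if_pos hk]
      have := sq_nonneg P.E
      linarith
    · rw [if_neg hk, h.linkA m (by omega)]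
      have h2 := abs_le.1 (h.left m (by omega))
      nlinarith
  have h2 : ∑ _m : κ, P.E ^ 2 = P.dd * P.E ^ 2 := by
    rw [Finset.sum_const, Finset.card_univ, nsmul_eq_mul]
    rfl
  have h3 := h.sqA
  have h4 := P.psi_le' k
  linarith

theorem tree :
    ∀ (n : ℕ) (B : Finset ι), B.card = n → ∀ (k : ℕ) (a a' b' : κ → ℝ), P.Inv k a B a' b' →
      ∃ L : List ι, L.Nodup ∧ L.toFinset = B ∧ ∀ L' : List ι, L' <+: L → ∃ Q : κ → ℝ,
        (∑ m, (Q m) ^ 2 ≤ P.dd * (P.E ^ 2 + 3 * (P.Λ : ℝ)) + P.dd * P.E ^ 2) ∧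
        (∀ m, k ≤ P.K m + P.Λ → |a m + (L'.map fun i => P.v i m).sum - Q m| ≤ 8 * P.E + 4) ∧
        (∀ m, P.K m + P.Λ ≤ k → (Q m - a' m) * (Q m - b' m) ≤ 0) := by
  intro n
  induction n using Nat.strong_induction_on with
  | _ n ih =>
  intro B hBn k a a' b' hInv
  have hE := P.hE1
  by_cases hB : 3 * P.E < (B.card : ℝ)
  · obtain ⟨R, p', hRB, hRc, hSc, hI1, hI2, hmid⟩ := P.split hInv hB
    obtain ⟨L1, hnd1, hL1, hb1⟩ := ih R.card (hBn ▸ hRc) R rfl (k + 1) a a' p' hI1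
    obtain ⟨L2, hnd2, hL2, hb2⟩ := ih (B \ R).card (hBn ▸ hSc) (B \ R) rfl (k + 1) _ p' b' hI2
    have hdisj : List.Disjoint L1 L2 := by
      intro i hi1 hi2
      have h1 : i ∈ R := by rw [← hL1]; simpa using hi1
      have h2 : i ∈ B \ R := by rw [← hL2]; simpa using hi2
      exact (Finset.mem_sdiff.1 h2).2 h1
    have hnd : (L1 ++ L2).Nodup := List.Nodup.append hnd1 hnd2 hdisj
    have hLB : (L1 ++ L2).toFinset = B := by
      rw [List.toFinset_append, hL1, hL2]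
      exact Finset.union_sdiff_of_subset hRB
    refine ⟨L1 ++ L2, hnd, hLB, ?_⟩
    intro L' hL'
    rcases List.prefix_or_prefix_of_prefix hL' (List.prefix_append L1 L2) with h | ⟨L'', rfl⟩
    · obtain ⟨Q, hQ1, hQ2, hQ3⟩ := hb1 L' h
      have hQ4 : ∀ m, P.K m + P.Λ ≤ k → (Q m - a' m) * (Q m - b' m) ≤ 0 := by
        intro m hm
        have h1 := hQ3 m (by omega)
        rw [hmid m hm] at h1
        nlinarith [sq_nonneg (Q m - a' m)]
      refine ⟨Q, hQ1, ?_, hQ4⟩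
      intro m hm
      by_cases hk : k + 1 ≤ P.K m + P.Λ
      · exact hQ2 m hk
      · exact P.dead_bound hInv hnd hLB hL' m (by omega) (hQ4 m (by omega))
    · have hL'' : L'' <+: L2 := (List.prefix_append_right_inj L1).1 hL'
      obtain ⟨Q, hQ1, hQ2, hQ3⟩ := hb2 L'' hL''
      have hQ4 : ∀ m, P.K m + P.Λ ≤ k → (Q m - a' m) * (Q m - b' m) ≤ 0 := by
        intro m hm
        have h1 := hQ3 m (by omega)
        rw [hmid m hm] at h1
        nlinarith [sq_nonneg (Q m - b' m)]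
      refine ⟨Q, hQ1, ?_, hQ4⟩
      intro m hm
      by_cases hk : k + 1 ≤ P.K m + P.Λ
      · have h1 := hQ2 m hk
        rw [List.map_append, List.sum_append, P.sum_eq_of_list hnd1 hL1, ← add_assoc]
        exact h1
      · exact P.dead_bound hInv hnd hLB hL' m (by omega) (hQ4 m (by omega))
  · push Not at hB
    refine ⟨B.toList, B.nodup_toList, B.toList_toFinset, ?_⟩
    intro L' hL'
    refine ⟨a', P.leaf_bound hInv, ?_, ?_⟩
    · intro m hm
      have h1 := P.sum_map_le L' m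
      have h2 := P.sum_abs_prefix_le B.nodup_toList B.toList_toFinset hL' m
      have h3 : ∑ i ∈ B, |P.v i m| ≤ (B.card : ℝ) := by
        refine (Finset.sum_le_card_nsmul _ _ 1 (fun i _ => P.abs_v_le i m)).trans (le_of_eq ?_)
        rw [nsmul_eq_mul, mul_one]
      rw [hInv.linkA m hm]
      have e : a m + (L'.map fun i => P.v i m).sum - a m = (L'.map fun i => P.v i m).sum := by ring
      rw [e]
      linarith
    · intro m _
      rw [sub_self, zero_mul]

end Params2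

end Vale.Agent.P262
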