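import Vale.Agent.P262.Defs
import Vale.Agent.P262.Main

open scoped BigOperators

namespace Vale.Agent.P262

theorem list_to_perm {N : ℕ} (L : List (Fin N)) (hnd : L.Nodup) (hL : L.toFinset = Finset.univ) :
    ∃ π : Equiv.Perm (Fin N), ∀ {M : Type} [AddCommMonoid M] (f : Fin N → M) (k : ℕ), k ≤ N →
      (∑ i ∈ Finset.univ.filter (fun i : Fin N => i.val < k), f (π i)) = ((L.take k).map f).sum := by
  have hlen : L.length = N := by
    have h1 := List.toFinset_card_of_nodup hnd
    rw [hL, Finset.card_univ, Fintype.card_fin] at h1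
    exact h1.symm
  have hmem : ∀ x, x ∈ L := fun x => by
    have : x ∈ L.toFinset := by rw [hL]; exact Finset.mem_univ x
    simpa using this
  set e : Fin L.length ≃ Fin N := List.Nodup.getEquivOfForallMemList L hnd hmem with he
  have heget : ∀ i : Fin L.length, e i = L.get i := fun i => rfl
  refine ⟨(finCongr hlen.symm).trans e, ?_⟩
  intro M _ f k hk
  have hval : ∀ i : Fin N, ((finCongr hlen.symm).trans e) i = L[(i : ℕ)]'(by rw [hlen]; exact i.2) := by
    intro i
    rw [Equiv.trans_apply, heget]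
    simp
  have h1 : ∀ k ≤ N, (∑ i ∈ Finset.univ.filter (fun i : Fin N => i.val < k), f (((finCongr hlen.symm).trans e) i)) =
      ((L.take k).map f).sum := by
    intro k
    induction k with
    | zero => intro _; simp
    | succ k ih =>
      intro hk
      have hkN : k < N := hk
      have hset : (Finset.univ.filter fun i : Fin N => (i : ℕ) < k + 1) =
          insert ⟨k, hkN⟩ (Finset.univ.filter fun i : Fin N => (i : ℕ) < k) := by
        ext i
        simp only [Finset.mem_filter, Finset.mem_univ, true_and, Finset.mem_insert, Fin.ext_iff]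
        omega
      rw [hset, Finset.sum_insert (by simp), ih (by omega), hval]
      rw [List.take_add_one]
      have : L[k]? = some (L[k]'(by rw [hlen]; exact hkN)) := by simp
      rw [this, List.map_append, List.sum_append, Option.toList_some]
      simp only [List.map_cons, List.map_nil, List.sum_cons, List.sum_nil, add_zero]
      rw [add_comm]
  exact h1 k hk

theorem perm_bound (d : ℕ) (hd : 1 ≤ d) (N : ℕ) (v : Fin N → EuclideanSpace ℝ (Fin d))
    (hv : ∀ i, ‖v i‖ ≤ 1) (h0 : ∑ i, v i = 0) :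
    ∃ π : Equiv.Perm (Fin N), ∀ k ≤ N, ‖∑ i ∈ Finset.univ.filter (fun i : Fin N => i.val < k), v (π i)‖ ≤
      2000 * Real.sqrt d * (Real.log ((d : ℝ) + 1)) ^ 2 := by
  obtain ⟨L, hnd, hLu, hL⟩ := order (κ := Fin d) (by simpa using hd) v hv h0
  obtain ⟨π, hπ⟩ := list_to_perm L hnd hLu
  refine ⟨π, fun k hk => ?_⟩
  rw [hπ v k hk]
  have := hL (L.take k) (List.take_prefix k L)
  simpa using this

theorem steinitz_le {d : ℕ} {B : ℝ} (h : ∀ (N : ℕ) (v : Fin N → EuclideanSpace ℝ (Fin d)),
    (∀ i, ‖v i‖ ≤ 1) → ∑ i, v i = 0 → ∃ π : Equiv.Perm (Fin N), ∀ k ≤ N,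
      ‖∑ i ∈ Finset.univ.filter (fun i : Fin N => i.val < k), v (π i)‖ ≤ B) : steinitz d ≤ ENNReal.ofReal B := by
  unfold steinitz
  refine iSup_le fun N => iSup_le fun v => iSup_le fun hv => iSup_le fun h0 => ?_
  obtain ⟨π, hπ⟩ := h N v hv h0
  refine (iInf_le _ π).trans ?_
  refine iSup_le fun k => ?_
  exact ENNReal.ofReal_le_ofReal (hπ k (Nat.lt_succ_iff.1 k.2))

end Vale.Agent.P262
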