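import Vale.Agent.P262.Proj

open scoped BigOperators

namespace Vale.Agent.P262

theorem hit_one {z β : ℝ} (hz : |z| < 1) (hβ : β ≠ 0) :
    ∃ t : ℝ, 0 < t ∧ |z + t * β| = 1 ∧ (∀ s, 0 ≤ s → s ≤ t → |z + s * β| ≤ 1) := by
  obtain ⟨hz1, hz2⟩ := abs_lt.1 hz
  rcases lt_or_gt_of_ne hβ with h | h
  · refine ⟨(1 + z) / (-β), div_pos (by linarith) (by linarith), ?_, ?_⟩
    · have : z + (1 + z) / (-β) * β = -1 := by
        field_simp
        ring
      rw [this]; simp
    · intro s hs0 hs
      have h1 : s * (-β) ≤ 1 + z := by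
        rw [le_div_iff₀ (by linarith)] at hs
        exact hs
      rw [abs_le]
      constructor
      · linarith
      · nlinarith
  · refine ⟨(1 - z) / β, div_pos (by linarith) h, ?_, ?_⟩
    · have : z + (1 - z) / β * β = 1 := by
        field_simp
        ring
      rw [this]; simp
    · intro s hs0 hs
      have h1 : s * β ≤ 1 - z := by
        rw [le_div_iff₀ h] at hs
        exact hs
      rw [abs_le]
      constructor
      · nlinarith
      · linarith

theorem hit {ι : Type*} [DecidableEq ι] (A : Finset ι) (z β : ι → ℝ) (hz : ∀ i ∈ A, |z i| < 1)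
    (p : ι) (hp : p ∈ A) (hβ : |β p| = 1) :
    ∃ δ : ℝ, 0 < δ ∧ δ ≤ 2 ∧ (∀ i ∈ A, |z i + δ * β i| ≤ 1) ∧ ∃ i ∈ A, |z i + δ * β i| = 1 := by
  classical
  have hβp : β p ≠ 0 := by
    intro h; rw [h] at hβ; simp at hβ
  have hex : ∀ i : ι, ∃ t : ℝ, i ∈ A → β i ≠ 0 →
      0 < t ∧ |z i + t * β i| = 1 ∧ (∀ s, 0 ≤ s → s ≤ t → |z i + s * β i| ≤ 1) := by
    intro i
    by_cases h1 : i ∈ A
    · by_cases h2 : β i = 0
      · exact ⟨0, fun _ h => absurd h2 h⟩
      · obtain ⟨t, ht⟩ := hit_one (hz i h1) h2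
        exact ⟨t, fun _ _ => ht⟩
    · exact ⟨0, fun h => absurd h h1⟩
  choose t ht using hex
  obtain ⟨j, hj, hmin⟩ := Finset.exists_min_image (A.filter fun i => β i ≠ 0) t
    ⟨p, by simp [hp, hβp]⟩
  rw [Finset.mem_filter] at hj
  obtain ⟨hj1, hj2⟩ := hj
  obtain ⟨hpos, habs, -⟩ := ht j hj1 hj2
  have hle : t j ≤ t p := hmin p (by simp [hp, hβp])
  obtain ⟨-, hpabs, hpall⟩ := ht p hp hβp
  refine ⟨t j, hpos, ?_, ?_, j, hj1, habs⟩
  · have h1 := hpall (t j) hpos.le hle
    have h2 := hz p hp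
    have h3 : |t j * β p| ≤ |z p + t j * β p| + |z p| := by
      have : t j * β p = (z p + t j * β p) - z p := by ring
      calc |t j * β p| = |(z p + t j * β p) - z p| := by rw [← this]
        _ ≤ _ := abs_sub _ _
    rw [abs_mul, hβ, abs_of_pos hpos] at h3
    linarith
  · intro i hi
    by_cases hβi : β i = 0
    · rw [hβi, mul_zero, add_zero]; exact (hz i hi).le
    · exact (ht i hi hβi).2.2 (t j) hpos.le (hmin i (by simp [hi, hβi]))

variable {E : Type*} [NormedAddCommGroup E] [InnerProductSpace ℝ E] [FiniteDimensional ℝ E]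

theorem walk {ι τ : Type*} [DecidableEq ι] (u : ι → E) (hu : ∀ i, ‖u i‖ ≤ 1)
    (Θ : Finset τ) (θ : τ → E) (hθ : ∀ t ∈ Θ, ‖θ t‖ ≤ 1/8) :
    ∀ (n : ℕ) (A : Finset ι), A.card = n → ∀ (p : ι), p ∈ A → ∀ (z : ι → ℝ),
      (∀ i ∈ A, |z i| < 1) → ∀ (K : Submodule ℝ E), (∀ i ∈ A, u i ∈ K) →
      ∀ (κ : τ → ℝ), (∀ t, 0 ≤ κ t) →
      ∃ ε : ι → ℝ, (∀ i ∈ A, ε i = 1 ∨ ε i = -1) ∧
        ∑ t ∈ Θ, κ t * Real.exp (inner ℝ (θ t) (∑ i ∈ A, (ε i - z i) • u i)) ≤
        ∑ t ∈ Θ, κ t * Real.exp (4 * (1 - (z p) ^ 2) *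
          (q K (θ t) - q (Submodule.span ℝ (u '' (A.erase p : Finset ι))) (θ t)) +
          4 * q (Submodule.span ℝ (u '' (A.erase p : Finset ι))) (θ t)) := by
  intro n
  induction n using Nat.strong_induction_on with
  | _ n ih =>
  intro A hA p hp z hz K hK κ hκ
  classical
  set H : Submodule ℝ E := Submodule.span ℝ (u '' (A.erase p : Finset ι)) with hH
  have hHK : H ≤ K := by
    rw [hH, Submodule.span_le]
    rintro _ ⟨i, hi, rfl⟩
    exact hK i (Finset.mem_of_mem_erase (Finset.mem_coe.1 hi))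
  set w : E := u p - H.starProjection (u p) with hw
  obtain ⟨c, hc⟩ : ∃ c : ι → ℝ, ∑ i ∈ A.erase p, c i • u i = H.starProjection (u p) := by
    have hmem : H.starProjection (u p) ∈ H := Submodule.starProjection_apply_mem H (u p)
    rw [hH] at hmem
    rw [Submodule.mem_span_image_finset_iff_exists_fun'] at hmem
    obtain ⟨c, hc⟩ := hmem
    exact ⟨c, hc⟩
  set α : ι → ℝ := fun i => if i = p then 1 else - c i with hα
  have hαw : ∑ i ∈ A, α i • u i = w := by
    rw [← Finset.add_sum_erase A _ hp]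
    have h1 : ∑ i ∈ A.erase p, α i • u i = ∑ i ∈ A.erase p, - (c i • u i) := by
      apply Finset.sum_congr rfl
      intro i hi
      rw [hα]
      simp only
      rw [if_neg (Finset.ne_of_mem_erase hi), neg_smul]
    rw [h1, Finset.sum_neg_distrib, hc]
    simp [hα, hw, sub_eq_add_neg]
  -- claim for each sign
  have claim : ∀ (s : ℝ), |s| = 1 → ∃ δ : ℝ, 0 < δ ∧ δ ≤ 2 ∧ |z p + δ * s| ≤ 1 ∧
      ∃ ε : ι → ℝ, (∀ i ∈ A, ε i = 1 ∨ ε i = -1) ∧
        ∑ t ∈ Θ, κ t * Real.exp (inner ℝ (θ t) (∑ i ∈ A, (ε i - z i) • u i)) ≤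
        ∑ t ∈ Θ, κ t * Real.exp ((δ * s) * inner ℝ (θ t) w +
          4 * (1 - (z p + δ * s) ^ 2) * (q K (θ t) - q H (θ t)) + 4 * q H (θ t)) := by
    intro s hs
    have hβp : |s * α p| = 1 := by
      simp [hα, hs]
    obtain ⟨δ, hδ0, hδ2, hδA, j, hjA, hj⟩ := hit A z (fun i => s * α i) hz p hp hβp
    refine ⟨δ, hδ0, hδ2, ?_, ?_⟩
    · have := hδA p hp
      simpa [hα] using this
    set z' : ι → ℝ := fun i => z i + δ * (s * α i) with hz'
    have hz'p : z' p = z p + δ * s := by simp [hz', hα]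
    set A' : Finset ι := A.filter (fun i => |z' i| < 1) with hA'
    have hA'A : A' ⊆ A := Finset.filter_subset _ _
    have hA'card : A'.card < n := by
      rw [← hA]
      apply Finset.card_lt_card
      refine ⟨hA'A, fun hsub => ?_⟩
      have h1 := hsub hjA
      rw [hA', Finset.mem_filter] at h1
      have h2 : |z' j| = 1 := hj
      linarith [h1.2]
    have hz'A' : ∀ i ∈ A', |z' i| < 1 := fun i hi => (Finset.mem_filter.1 hi).2
    have hfrozen : ∀ i ∈ A, i ∉ A' → (z' i = 1 ∨ z' i = -1) := by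
      intro i hi hi'
      have h1 : |z' i| ≤ 1 := hδA i hi
      have h2 : ¬ |z' i| < 1 := by
        intro h; exact hi' (Finset.mem_filter.2 ⟨hi, h⟩)
      have h3 : |z' i| = 1 := le_antisymm h1 (not_lt.1 h2)
      exact eq_or_eq_neg_of_abs_eq h3
    have hshift : ∑ i ∈ A, (z' i - z i) • u i = (δ * s) • w := by
      rw [← hαw, Finset.smul_sum]
      apply Finset.sum_congr rfl
      intro i _
      rw [smul_smul]
      congr 1
      simp only [hz']
      ring
    have hsplit : ∀ ε : ι → ℝ, (∀ i ∈ A, i ∉ A' → ε i = z' i) →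
        ∑ i ∈ A, (ε i - z i) • u i = (∑ i ∈ A', (ε i - z' i) • u i) + (δ * s) • w := by
      intro ε hε
      have h1 : ∑ i ∈ A, (ε i - z i) • u i =
          ∑ i ∈ A, (ε i - z' i) • u i + ∑ i ∈ A, (z' i - z i) • u i := by
        rw [← Finset.sum_add_distrib]
        apply Finset.sum_congr rfl
        intro i _
        rw [← add_smul]
        congr 1
        ring
      rw [h1, hshift]
      congr 1
      symm
      apply Finset.sum_subset hA'A
      intro i hi hi'
      rw [hε i hi hi', sub_self, zero_smul]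
    -- weights
    set κ' : τ → ℝ := fun t => κ t * Real.exp ((δ * s) * inner ℝ (θ t) w) with hκ'
    have hκ'0 : ∀ t, 0 ≤ κ' t := fun t => mul_nonneg (hκ t) (Real.exp_pos _).le
    have hfin : ∀ ε : ι → ℝ, (∀ i ∈ A, i ∉ A' → ε i = z' i) →
        ∑ t ∈ Θ, κ t * Real.exp (inner ℝ (θ t) (∑ i ∈ A, (ε i - z i) • u i)) =
        ∑ t ∈ Θ, κ' t * Real.exp (inner ℝ (θ t) (∑ i ∈ A', (ε i - z' i) • u i)) := by
      intro ε hε
      apply Finset.sum_congr rfl
      intro t _
      rw [hsplit ε hε, inner_add_right, inner_smul_right, hκ']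
      simp only
      rw [Real.exp_add]
      ring
    have hgoal : ∀ (X : τ → ℝ), (∀ t, X t ≤ 4 * (1 - (z' p) ^ 2) * (q K (θ t) - q H (θ t))
          + 4 * q H (θ t)) →
        ∑ t ∈ Θ, κ' t * Real.exp (X t) ≤
        ∑ t ∈ Θ, κ t * Real.exp ((δ * s) * inner ℝ (θ t) w +
          4 * (1 - (z p + δ * s) ^ 2) * (q K (θ t) - q H (θ t)) + 4 * q H (θ t)) := by
      intro X hX
      apply Finset.sum_le_sum
      intro t _
      rw [hκ']
      simp only
      rw [mul_assoc, ← Real.exp_add]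
      apply mul_le_mul_of_nonneg_left _ (hκ t)
      apply Real.exp_le_exp.2
      have := hX t
      rw [hz'p] at this
      linarith
    have hsq' : (z' p) ^ 2 ≤ 1 := by
      have h1 : |z' p| ≤ 1 := hδA p hp
      have := sq_abs (z' p)
      nlinarith [abs_nonneg (z' p)]
    by_cases hpA' : p ∈ A'
    · obtain ⟨ε, hε1, hε2⟩ := ih A'.card hA'card A' rfl p hpA' z' hz'A' K
        (fun i hi => hK i (hA'A hi)) κ' hκ'0
      refine ⟨fun i => if i ∈ A' then ε i else z' i, ?_, ?_⟩
      · intro i hi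
        by_cases h : i ∈ A'
        · simp only [h, if_true]; exact hε1 i h
        · simp only [h, if_false]; exact hfrozen i hi h
      · rw [hfin _ (fun i _ h => by simp [h])]
        have h1 : ∀ t : ι, ∑ i ∈ A', ((if i ∈ A' then ε i else z' i) - z' i) • u i =
            ∑ i ∈ A', (ε i - z' i) • u i := by
          intro t
          apply Finset.sum_congr rfl
          intro i hi
          rw [if_pos hi]
        simp only [h1 p]
        refine le_trans hε2 (hgoal _ ?_)
        intro t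
        set H' : Submodule ℝ E := Submodule.span ℝ (u '' (A'.erase p : Finset ι)) with hH'
        have hH'H : H' ≤ H := by
          rw [hH', hH]
          apply Submodule.span_mono
          apply Set.image_mono
          intro i hi
          simp only [Finset.coe_erase, Set.mem_sdiff, Finset.mem_coe, Set.mem_singleton_iff] at hi ⊢
          exact ⟨hA'A hi.1, hi.2⟩
        have h2 := q_mono hH'H (θ t)
        nlinarith [sq_nonneg (z' p), mul_nonneg (sq_nonneg (z' p)) (sub_nonneg.2 h2)]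
    · have hzp1 : (z' p) ^ 2 = 1 := by
        rcases hfrozen p hp hpA' with h | h <;> rw [h] <;> norm_num
      rcases A'.eq_empty_or_nonempty with hemp | ⟨p', hp'⟩
      · refine ⟨z', ?_, ?_⟩
        · intro i hi
          exact hfrozen i hi (by rw [hemp]; simp)
        · rw [hfin z' (fun i _ _ => rfl), hemp]
          refine hgoal _ ?_
          intro t
          simp only [Finset.sum_empty, inner_zero_right]
          rw [hzp1]
          have := q_nonneg H (θ t)
          linarith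
      · have hp'H : ∀ i ∈ A', u i ∈ H := by
          intro i hi
          apply Submodule.subset_span
          refine ⟨i, ?_, rfl⟩
          simp only [Finset.coe_erase, Set.mem_sdiff, Finset.mem_coe, Set.mem_singleton_iff]
          refine ⟨hA'A hi, ?_⟩
          rintro rfl
          exact hpA' hi
        obtain ⟨ε, hε1, hε2⟩ := ih A'.card hA'card A' rfl p' hp' z' hz'A' H hp'H κ' hκ'0
        refine ⟨fun i => if i ∈ A' then ε i else z' i, ?_, ?_⟩
        · intro i hi
          by_cases h : i ∈ A'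
          · simp only [h, if_true]; exact hε1 i h
          · simp only [h, if_false]; exact hfrozen i hi h
        · rw [hfin _ (fun i _ h => by simp [h])]
          have h1 : ∀ t : ι, ∑ i ∈ A', ((if i ∈ A' then ε i else z' i) - z' i) • u i =
              ∑ i ∈ A', (ε i - z' i) • u i := by
            intro t
            apply Finset.sum_congr rfl
            intro i hi
            rw [if_pos hi]
          simp only [h1 p]
          refine le_trans hε2 (hgoal _ ?_)
          intro t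
          set H' : Submodule ℝ E := Submodule.span ℝ (u '' (A'.erase p' : Finset ι)) with hH'
          have hH'H : H' ≤ H := by
            rw [hH', Submodule.span_le]
            rintro _ ⟨i, hi, rfl⟩
            exact hp'H i (Finset.mem_of_mem_erase (Finset.mem_coe.1 hi))
          have h2 := q_mono hH'H (θ t)
          rw [hzp1]
          nlinarith [sq_nonneg (z' p'), mul_nonneg (sq_nonneg (z' p')) (sub_nonneg.2 h2)]
  obtain ⟨a, ha0, ha2, hax, ε1, hε1, hv1⟩ := claim 1 (by simp)
  obtain ⟨b, hb0, hb2, hbx, ε2, hε2, hv2⟩ := claim (-1) (by simp)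
  set R := ∑ t ∈ Θ, κ t * Real.exp (4 * (1 - (z p) ^ 2) * (q K (θ t) - q H (θ t)) +
      4 * q H (θ t)) with hR
  set V1 := ∑ t ∈ Θ, κ t * Real.exp ((a * 1) * inner ℝ (θ t) w +
          4 * (1 - (z p + a * 1) ^ 2) * (q K (θ t) - q H (θ t)) + 4 * q H (θ t)) with hV1
  set V2 := ∑ t ∈ Θ, κ t * Real.exp ((b * (-1)) * inner ℝ (θ t) w +
          4 * (1 - (z p + b * (-1)) ^ 2) * (q K (θ t) - q H (θ t)) + 4 * q H (θ t)) with hV2
  have havg : b * V1 + a * V2 ≤ (a + b) * R := by
    rw [hV1, hV2, hR, Finset.mul_sum, Finset.mul_sum, Finset.mul_sum, ← Finset.sum_add_distrib]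
    apply Finset.sum_le_sum
    intro t ht
    set Γ := q K (θ t) - q H (θ t) with hΓ
    set g := inner ℝ (θ t) w with hg
    have hzp : |z p| ≤ 1 := (hz p hp).le
    have hnorm : ‖θ t‖ ^ 2 ≤ 1/64 := by
      have := hθ t ht
      nlinarith [norm_nonneg (θ t)]
    have hΓle : Γ ≤ 1/64 := by
      have h1 := q_le K (θ t)
      have h2 := q_nonneg H (θ t)
      linarith
    have hgΓ : g ^ 2 ≤ Γ := by
      have h1 := inner_sq_le hHK (u p) (θ t) (hK p hp)
      have h2 : ‖u p‖ ^ 2 ≤ 1 := by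
        have := hu p
        nlinarith [norm_nonneg (u p)]
      have h3 : 0 ≤ Γ := sub_nonneg.2 (q_mono hHK (θ t))
      calc g ^ 2 ≤ Γ * ‖u p‖ ^ 2 := h1
        _ ≤ Γ * 1 := by gcongr
        _ = Γ := by ring
    have e1 := exp_step (δ := a * 1) (g := g) (Γ := Γ) (x := z p)
      (by rw [mul_one, abs_of_pos ha0]; exact ha2) hΓle hgΓ hzp
    have e2 := exp_step (δ := b * (-1)) (g := g) (Γ := Γ) (x := z p)
      (by rw [mul_neg_one, abs_neg, abs_of_pos hb0]; exact hb2) hΓle hgΓ hzp
    rw [Real.exp_add _ (4 * q H (θ t)), Real.exp_add _ (4 * q H (θ t)),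
      Real.exp_add _ (4 * q H (θ t))]
    have hX := Real.exp_pos (4 * q H (θ t))
    have hY := Real.exp_pos (4 * (1 - z p ^ 2) * Γ)
    have hk := hκ t
    calc b * (κ t * (Real.exp (a * 1 * g + 4 * (1 - (z p + a * 1) ^ 2) * Γ)
            * Real.exp (4 * q H (θ t)))) +
          a * (κ t * (Real.exp (b * -1 * g + 4 * (1 - (z p + b * -1) ^ 2) * Γ)
            * Real.exp (4 * q H (θ t))))
        = κ t * Real.exp (4 * q H (θ t)) *
          (b * Real.exp (a * 1 * g + 4 * (1 - (z p + a * 1) ^ 2) * Γ) +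
           a * Real.exp (b * -1 * g + 4 * (1 - (z p + b * -1) ^ 2) * Γ)) := by ring
      _ ≤ κ t * Real.exp (4 * q H (θ t)) *
          (b * (Real.exp (4 * (1 - z p ^ 2) * Γ) * (1 + a * 1 * (g - 8 * Γ * z p))) +
           a * (Real.exp (4 * (1 - z p ^ 2) * Γ) * (1 + b * -1 * (g - 8 * Γ * z p)))) := by
          gcongr
      _ = (a + b) * (κ t * (Real.exp (4 * (1 - z p ^ 2) * Γ) * Real.exp (4 * q H (θ t)))) := by
          ring
  by_cases hcase : V1 ≤ R
  · exact ⟨ε1, hε1, hv1.trans hcase⟩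
  · refine ⟨ε2, hε2, hv2.trans ?_⟩
    push Not at hcase
    by_contra hcon
    push Not at hcon
    nlinarith

end Vale.Agent.P262
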