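import Vale.Agent.P262.Walk
import Vale.Agent.P262.Lp

open scoped BigOperators

namespace Vale.Agent.P262

variable {E : Type*} [NormedAddCommGroup E] [InnerProductSpace ℝ E] [FiniteDimensional ℝ E]

theorem proj_zero_of_sub {H K : Submodule ℝ E} (h : H ≤ K) (x : E) :
    H.starProjection (K.starProjection x - H.starProjection x) = 0 := by
  have h1 : H.starProjection (K.starProjection x) = H.starProjection x := by
    have := Submodule.starProjection_comp_starProjection_of_le h
    calc H.starProjection (K.starProjection x) = (H.starProjection ∘L K.starProjection) x := rfl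
      _ = _ := by rw [this]
  have h2 : H.starProjection (H.starProjection x) = H.starProjection x := by
    have := Submodule.starProjection_comp_starProjection_of_le (le_refl H)
    calc H.starProjection (H.starProjection x) = (H.starProjection ∘L H.starProjection) x := rfl
      _ = _ := by rw [this]
  rw [map_sub, h1, h2, sub_self]

theorem inner_sq_le' {H K : Submodule ℝ E} (h : H ≤ K) (w x : E) (hw : w ∈ K)
    (hw0 : H.starProjection w = 0) :
    (inner ℝ x w) ^ 2 ≤ ‖w‖ ^ 2 * (q K x - q H x) := by
  have := inner_sq_le h w x hw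
  rw [hw0, sub_zero] at this
  linarith

theorem walk2 {ι τ : Type*} [DecidableEq ι] (u : ι → E) (hu : ∀ i, ‖u i‖ ≤ 1)
    (Θ : Finset τ) (θ : τ → E) (c : ι → ℝ) :
    ∀ (n : ℕ) (A : Finset ι), A.card = n → ∀ (p : ι), p ∈ A → ∀ (z : ι → ℝ),
      (∀ i ∈ A, |z i| < 1) →
      ∀ (κ : τ → ℝ), (∀ t, 0 ≤ κ t) →
      ∃ ε : ι → ℝ, (∀ i ∈ A, ε i = 1 ∨ ε i = -1) ∧
        ∑ t ∈ Θ, κ t * Real.exp (inner ℝ (θ t) (∑ i ∈ A, (ε i - z i) • u i)) +
          ∑ i ∈ A, c i * (ε i - z i) ≤
        ∑ t ∈ Θ, κ t * (Lp (‖u p - (Submodule.span ℝ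
            (u '' (A.erase p : Finset ι))).starProjection (u p)‖ ^ 2)
          (inner ℝ (θ t) (u p - (Submodule.span ℝ
            (u '' (A.erase p : Finset ι))).starProjection (u p))) (z p) *
          Real.exp (q (Submodule.span ℝ (u '' (A.erase p : Finset ι))) (θ t) / 2)) := by
  intro n
  induction n using Nat.strong_induction_on with
  | _ n ih =>
  intro A hA p hp z hz κ hκ
  classical
  set H : Submodule ℝ E := Submodule.span ℝ (u '' (A.erase p : Finset ι)) with hH
  set w : E := u p - H.starProjection (u p) with hw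
  have hPw : H.starProjection w = 0 := by
    have h2 : H.starProjection (H.starProjection (u p)) = H.starProjection (u p) := by
      have := Submodule.starProjection_comp_starProjection_of_le (le_refl H)
      calc H.starProjection (H.starProjection (u p))
          = (H.starProjection ∘L H.starProjection) (u p) := rfl
        _ = _ := by rw [this]
    rw [hw, map_sub, h2, sub_self]
  obtain ⟨cc, hc⟩ : ∃ c : ι → ℝ, ∑ i ∈ A.erase p, c i • u i = H.starProjection (u p) := by
    have hmem : H.starProjection (u p) ∈ H := Submodule.starProjection_apply_mem H (u p)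
    rw [hH] at hmem
    rw [Submodule.mem_span_image_finset_iff_exists_fun'] at hmem
    obtain ⟨c, hc⟩ := hmem
    exact ⟨c, hc⟩
  set α : ι → ℝ := fun i => if i = p then 1 else - cc i with hα
  have hαw : ∑ i ∈ A, α i • u i = w := by
    rw [← Finset.add_sum_erase A _ hp]
    have h1 : ∑ i ∈ A.erase p, α i • u i = ∑ i ∈ A.erase p, - (cc i • u i) := by
      apply Finset.sum_congr rfl
      intro i hi
      rw [hα]
      simp only
      rw [if_neg (Finset.ne_of_mem_erase hi), neg_smul]
    rw [h1, Finset.sum_neg_distrib, hc]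
    simp [hα, hw, sub_eq_add_neg]
  set C : ℝ := ∑ i ∈ A, c i * α i with hC
  have claim : ∀ (s : ℝ), |s| = 1 → ∃ δ : ℝ, 0 < δ ∧ |z p + δ * s| ≤ 1 ∧
      ∃ ε : ι → ℝ, (∀ i ∈ A, ε i = 1 ∨ ε i = -1) ∧
        ∑ t ∈ Θ, κ t * Real.exp (inner ℝ (θ t) (∑ i ∈ A, (ε i - z i) • u i)) +
          ∑ i ∈ A, c i * (ε i - z i) ≤
        ∑ t ∈ Θ, κ t * (Real.exp ((δ * s) * inner ℝ (θ t) w) *
          Lp (‖w‖ ^ 2) (inner ℝ (θ t) w) (z p + δ * s) * Real.exp (q H (θ t) / 2)) +
          δ * s * C := by
    intro s hs
    have hβp : |s * α p| = 1 := by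
      simp [hα, hs]
    obtain ⟨δ, hδ0, hδ2, hδA, j, hjA, hj⟩ := hit A z (fun i => s * α i) hz p hp hβp
    refine ⟨δ, hδ0, ?_, ?_⟩
    · have := hδA p hp
      simpa [hα] using this
    set z' : ι → ℝ := fun i => z i + δ * (s * α i) with hz'
    have hz'p : z' p = z p + δ * s := by simp [hz', hα]
    set A' : Finset ι := A.filter (fun i => |z' i| < 1) with hA'
    have hA'A : A' ⊆ A := Finset.filter_subset _ _
    have hA'card : A'.card < n := by
      rw [← hA]
      apply Finset.card_lt_card
      refine ⟨hA'A, fun hsub => ?_⟩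
      have h1 := hsub hjA
      rw [hA', Finset.mem_filter] at h1
      have h2 : |z' j| = 1 := hj
      linarith [h1.2]
    have hz'A' : ∀ i ∈ A', |z' i| < 1 := fun i hi => (Finset.mem_filter.1 hi).2
    have hfrozen : ∀ i ∈ A, i ∉ A' → (z' i = 1 ∨ z' i = -1) := by
      intro i hi hi'
      have h1 : |z' i| ≤ 1 := hδA i hi
      have h2 : ¬ |z' i| < 1 := by
        intro h; exact hi' (Finset.mem_filter.2 ⟨hi, h⟩)
      have h3 : |z' i| = 1 := le_antisymm h1 (not_lt.1 h2)
      exact eq_or_eq_neg_of_abs_eq h3
    have hshift : ∑ i ∈ A, (z' i - z i) • u i = (δ * s) • w := by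
      rw [← hαw, Finset.smul_sum]
      apply Finset.sum_congr rfl
      intro i _
      rw [smul_smul]
      congr 1
      simp only [hz']
      ring
    have hshiftc : ∑ i ∈ A, c i * (z' i - z i) = δ * s * C := by
      rw [hC, Finset.mul_sum]
      apply Finset.sum_congr rfl
      intro i _
      simp only [hz']
      ring
    have hsplit : ∀ ε : ι → ℝ, (∀ i ∈ A, i ∉ A' → ε i = z' i) →
        ∑ i ∈ A, (ε i - z i) • u i = (∑ i ∈ A', (ε i - z' i) • u i) + (δ * s) • w := by
      intro ε hε
      have h1 : ∑ i ∈ A, (ε i - z i) • u i =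
          ∑ i ∈ A, (ε i - z' i) • u i + ∑ i ∈ A, (z' i - z i) • u i := by
        rw [← Finset.sum_add_distrib]
        apply Finset.sum_congr rfl
        intro i _
        rw [← add_smul]
        congr 1
        ring
      rw [h1, hshift]
      congr 1
      symm
      apply Finset.sum_subset hA'A
      intro i hi hi'
      rw [hε i hi hi', sub_self, zero_smul]
    have hsplitc : ∀ ε : ι → ℝ, (∀ i ∈ A, i ∉ A' → ε i = z' i) →
        ∑ i ∈ A, c i * (ε i - z i) = (∑ i ∈ A', c i * (ε i - z' i)) + δ * s * C := by
      intro ε hε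
      have h1 : ∑ i ∈ A, c i * (ε i - z i) =
          ∑ i ∈ A, c i * (ε i - z' i) + ∑ i ∈ A, c i * (z' i - z i) := by
        rw [← Finset.sum_add_distrib]
        apply Finset.sum_congr rfl
        intro i _
        ring
      rw [h1, hshiftc]
      congr 1
      symm
      apply Finset.sum_subset hA'A
      intro i hi hi'
      rw [hε i hi hi', sub_self, mul_zero]
    set κ' : τ → ℝ := fun t => κ t * Real.exp ((δ * s) * inner ℝ (θ t) w) with hκ'
    have hκ'0 : ∀ t, 0 ≤ κ' t := fun t => mul_nonneg (hκ t) (Real.exp_pos _).le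
    have hfin : ∀ ε : ι → ℝ, (∀ i ∈ A, i ∉ A' → ε i = z' i) →
        ∑ t ∈ Θ, κ t * Real.exp (inner ℝ (θ t) (∑ i ∈ A, (ε i - z i) • u i)) =
        ∑ t ∈ Θ, κ' t * Real.exp (inner ℝ (θ t) (∑ i ∈ A', (ε i - z' i) • u i)) := by
      intro ε hε
      apply Finset.sum_congr rfl
      intro t _
      rw [hsplit ε hε, inner_add_right, inner_smul_right, hκ']
      simp only
      rw [Real.exp_add]
      ring
    have hgoal : ∀ (X : τ → ℝ), (∀ t, X t ≤ Lp (‖w‖ ^ 2) (inner ℝ (θ t) w) (z' p) *
          Real.exp (q H (θ t) / 2)) →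
        ∑ t ∈ Θ, κ' t * X t ≤
        ∑ t ∈ Θ, κ t * (Real.exp ((δ * s) * inner ℝ (θ t) w) *
          Lp (‖w‖ ^ 2) (inner ℝ (θ t) w) (z p + δ * s) * Real.exp (q H (θ t) / 2)) := by
      intro X hX
      apply Finset.sum_le_sum
      intro t _
      rw [hκ']
      simp only
      have hx := hX t
      rw [hz'p] at hx
      calc κ t * Real.exp ((δ * s) * inner ℝ (θ t) w) * X t
          = κ t * Real.exp ((δ * s) * inner ℝ (θ t) w) * X t := rfl
        _ ≤ κ t * Real.exp ((δ * s) * inner ℝ (θ t) w) *
            (Lp (‖w‖ ^ 2) (inner ℝ (θ t) w) (z p + δ * s) * Real.exp (q H (θ t) / 2)) :=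
            mul_le_mul_of_nonneg_left hx (mul_nonneg (hκ t) (Real.exp_pos _).le)
        _ = _ := by ring
    have hzp1 : |z' p| ≤ 1 := hδA p hp
    by_cases hpA' : p ∈ A'
    · obtain ⟨ε, hε1, hε2⟩ := ih A'.card hA'card A' rfl p hpA' z' hz'A' κ' hκ'0
      refine ⟨fun i => if i ∈ A' then ε i else z' i, ?_, ?_⟩
      · intro i hi
        by_cases h : i ∈ A'
        · simp only [h, if_true]; exact hε1 i h
        · simp only [h, if_false]; exact hfrozen i hi h
      · rw [hfin _ (fun i _ h => by simp [h]), hsplitc _ (fun i _ h => by simp [h])]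
        have h1 : ∑ i ∈ A', ((if i ∈ A' then ε i else z' i) - z' i) • u i =
            ∑ i ∈ A', (ε i - z' i) • u i := by
          apply Finset.sum_congr rfl
          intro i hi
          rw [if_pos hi]
        have h1c : ∑ i ∈ A', c i * ((if i ∈ A' then ε i else z' i) - z' i) =
            ∑ i ∈ A', c i * (ε i - z' i) := by
          apply Finset.sum_congr rfl
          intro i hi
          rw [if_pos hi]
        simp only [h1, h1c]
        set H' : Submodule ℝ E := Submodule.span ℝ (u '' (A'.erase p : Finset ι)) with hH'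
        have hH'H : H' ≤ H := by
          rw [hH', hH]
          apply Submodule.span_mono
          apply Set.image_mono
          intro i hi
          simp only [Finset.coe_erase, Set.mem_sdiff, Finset.mem_coe, Set.mem_singleton_iff] at hi ⊢
          exact ⟨hA'A hi.1, hi.2⟩
        have hmain := hgoal (fun t => Lp (‖u p - H'.starProjection (u p)‖ ^ 2)
          (inner ℝ (θ t) (u p - H'.starProjection (u p))) (z' p) *
            Real.exp (q H' (θ t) / 2)) ?_
        · linarith
        · intro t
          set h : E := H.starProjection (u p) - H'.starProjection (u p) with hh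
          have hwh : u p - H'.starProjection (u p) = w + h := by
            rw [hw, hh]; abel
          have hhH : h ∈ H := H.sub_mem (Submodule.starProjection_apply_mem H _)
            (hH'H (Submodule.starProjection_apply_mem H' _))
          have hh0 : H'.starProjection h = 0 := proj_zero_of_sub hH'H (u p)
          have horth : inner ℝ w h = 0 := by
            have hwperp : w ∈ Hᗮ := Submodule.sub_starProjection_mem_orthogonal (u p)
            rw [real_inner_comm]
            exact (Submodule.mem_orthogonal _ _).1 hwperp _ hhH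
          have hnorm : ‖w + h‖ ^ 2 = ‖w‖ ^ 2 + ‖h‖ ^ 2 := by
            rw [norm_add_sq_real, horth]; ring
          rw [hwh, hnorm, inner_add_right]
          have hadd := Lp_add (ρ := ‖w‖ ^ 2) (σ := ‖h‖ ^ 2) (g := inner ℝ (θ t) w)
            (η := inner ℝ (θ t) h) hzp1 (sq_nonneg _) (sq_nonneg _)
            (by
              intro h0
              have : w = 0 := norm_eq_zero.1 (pow_eq_zero_iff (two_ne_zero) |>.1 h0)
              rw [this, inner_zero_right])
            (by
              intro h0
              have : h = 0 := norm_eq_zero.1 (pow_eq_zero_iff (two_ne_zero) |>.1 h0)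
              rw [this, inner_zero_right])
          have hle := Lp_le (ρ := ‖h‖ ^ 2) (g := inner ℝ (θ t) h) (Δ := q H (θ t) - q H' (θ t))
            hzp1 (sq_nonneg _) (sub_nonneg.2 (q_mono hH'H _)) (inner_sq_le' hH'H h (θ t) hhH hh0)
          have hL0 := Lp_nonneg (ρ := ‖w‖ ^ 2) (g := inner ℝ (θ t) w) hzp1
          calc Lp (‖w‖ ^ 2 + ‖h‖ ^ 2) (inner ℝ (θ t) w + inner ℝ (θ t) h) (z' p) *
                Real.exp (q H' (θ t) / 2)
              ≤ (Lp (‖w‖ ^ 2) (inner ℝ (θ t) w) (z' p) *
                Real.exp ((q H (θ t) - q H' (θ t)) / 2)) * Real.exp (q H' (θ t) / 2) := by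
                apply mul_le_mul_of_nonneg_right _ (Real.exp_pos _).le
                exact hadd.trans (mul_le_mul_of_nonneg_left hle hL0)
            _ = _ := by
                rw [mul_assoc, ← Real.exp_add]
                congr 2
                ring
    · have hzpe : z' p = 1 ∨ z' p = -1 := hfrozen p hp hpA'
      have hLe : ∀ t, Lp (‖w‖ ^ 2) (inner ℝ (θ t) w) (z' p) = 1 := by
        intro t
        apply Lp_end hzpe
        intro h0
        have : w = 0 := norm_eq_zero.1 (pow_eq_zero_iff (two_ne_zero) |>.1 h0)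
        rw [this, inner_zero_right]
      rcases A'.eq_empty_or_nonempty with hemp | ⟨p', hp'⟩
      · refine ⟨z', ?_, ?_⟩
        · intro i hi
          exact hfrozen i hi (by rw [hemp]; simp)
        · rw [hfin z' (fun i _ _ => rfl), hsplitc z' (fun i _ _ => rfl), hemp]
          have hmain := hgoal (fun t => 1) ?_
          · simp only [Finset.sum_empty, inner_zero_right, Real.exp_zero]
            linarith
          · intro t
            rw [hLe t, one_mul]
            apply Real.one_le_exp
            have := q_nonneg H (θ t)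
            positivity
      · have hp'H : ∀ i ∈ A', u i ∈ H := by
          intro i hi
          apply Submodule.subset_span
          refine ⟨i, ?_, rfl⟩
          simp only [Finset.coe_erase, Set.mem_sdiff, Finset.mem_coe, Set.mem_singleton_iff]
          refine ⟨hA'A hi, ?_⟩
          rintro rfl
          exact hpA' hi
        obtain ⟨ε, hε1, hε2⟩ := ih A'.card hA'card A' rfl p' hp' z' hz'A' κ' hκ'0
        refine ⟨fun i => if i ∈ A' then ε i else z' i, ?_, ?_⟩
        · intro i hi
          by_cases h : i ∈ A'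
          · simp only [h, if_true]; exact hε1 i h
          · simp only [h, if_false]; exact hfrozen i hi h
        · rw [hfin _ (fun i _ h => by simp [h]), hsplitc _ (fun i _ h => by simp [h])]
          have h1 : ∑ i ∈ A', ((if i ∈ A' then ε i else z' i) - z' i) • u i =
              ∑ i ∈ A', (ε i - z' i) • u i := by
            apply Finset.sum_congr rfl
            intro i hi
            rw [if_pos hi]
          have h1c : ∑ i ∈ A', c i * ((if i ∈ A' then ε i else z' i) - z' i) =
              ∑ i ∈ A', c i * (ε i - z' i) := by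
            apply Finset.sum_congr rfl
            intro i hi
            rw [if_pos hi]
          simp only [h1, h1c]
          set H' : Submodule ℝ E := Submodule.span ℝ (u '' (A'.erase p' : Finset ι)) with hH'
          have hH'H : H' ≤ H := by
            rw [hH', Submodule.span_le]
            rintro _ ⟨i, hi, rfl⟩
            exact hp'H i (Finset.mem_of_mem_erase (Finset.mem_coe.1 hi))
          have hmain := hgoal (fun t => Lp (‖u p' - H'.starProjection (u p')‖ ^ 2)
            (inner ℝ (θ t) (u p' - H'.starProjection (u p'))) (z' p') *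
              Real.exp (q H' (θ t) / 2)) ?_
          · linarith
          · intro t
            rw [hLe t, one_mul]
            set w' : E := u p' - H'.starProjection (u p') with hw'
            have hw'H : w' ∈ H := H.sub_mem (hp'H p' hp')
              (hH'H (Submodule.starProjection_apply_mem H' _))
            have hw'0 : H'.starProjection w' = 0 := by
              have h2 : H'.starProjection (H'.starProjection (u p')) = H'.starProjection (u p') := by
                have := Submodule.starProjection_comp_starProjection_of_le (le_refl H')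
                calc H'.starProjection (H'.starProjection (u p'))
                    = (H'.starProjection ∘L H'.starProjection) (u p') := rfl
                  _ = _ := by rw [this]
              rw [hw', map_sub, h2, sub_self]
            have hle := Lp_le (ρ := ‖w'‖ ^ 2) (g := inner ℝ (θ t) w')
              (Δ := q H (θ t) - q H' (θ t)) (z := z' p')
              (hz'A' p' hp').le (sq_nonneg _) (sub_nonneg.2 (q_mono hH'H _))
              (inner_sq_le' hH'H w' (θ t) hw'H hw'0)
            calc Lp (‖w'‖ ^ 2) (inner ℝ (θ t) w') (z' p') * Real.exp (q H' (θ t) / 2)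
                ≤ Real.exp ((q H (θ t) - q H' (θ t)) / 2) * Real.exp (q H' (θ t) / 2) :=
                  mul_le_mul_of_nonneg_right hle (Real.exp_pos _).le
              _ = _ := by
                  rw [← Real.exp_add]
                  congr 1
                  ring
  obtain ⟨a, ha0, hax, ε1, hε1, hv1⟩ := claim 1 (by simp)
  obtain ⟨b, hb0, hbx, ε2, hε2, hv2⟩ := claim (-1) (by simp)
  set R := ∑ t ∈ Θ, κ t * (Lp (‖w‖ ^ 2) (inner ℝ (θ t) w) (z p) * Real.exp (q H (θ t) / 2))
    with hR
  set V1 := ∑ t ∈ Θ, κ t * (Real.exp ((a * 1) * inner ℝ (θ t) w) *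
          Lp (‖w‖ ^ 2) (inner ℝ (θ t) w) (z p + a * 1) * Real.exp (q H (θ t) / 2)) with hV1
  set V2 := ∑ t ∈ Θ, κ t * (Real.exp ((b * (-1)) * inner ℝ (θ t) w) *
          Lp (‖w‖ ^ 2) (inner ℝ (θ t) w) (z p + b * (-1)) * Real.exp (q H (θ t) / 2)) with hV2
  have hw1 : ‖w‖ ^ 2 ≤ 1 := by
    have h3 := Submodule.norm_sq_eq_add_norm_sq_starProjection (u p) H
    rw [Submodule.starProjection_orthogonal_val] at h3
    have h4 : ‖w‖ ^ 2 ≤ ‖u p‖ ^ 2 := by
      rw [h3]; nlinarith [sq_nonneg ‖H.starProjection (u p)‖]
    have h5 : ‖u p‖ ^ 2 ≤ 1 := by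
      have := hu p
      nlinarith [norm_nonneg (u p)]
    linarith
  have havg : b * V1 + a * V2 ≤ (a + b) * R := by
    rw [hV1, hV2, hR, Finset.mul_sum, Finset.mul_sum, Finset.mul_sum, ← Finset.sum_add_distrib]
    apply Finset.sum_le_sum
    intro t ht
    have hst := Lp_step (ρ := ‖w‖ ^ 2) (g := inner ℝ (θ t) w) (z := z p) (a := a) (b := b)
      ha0 hb0 (by simpa using hax) (by simpa [sub_eq_add_neg] using hbx) (sq_nonneg _) hw1
    have hk := hκ t
    have hX := Real.exp_pos (q H (θ t) / 2)
    have e1 : z p + b * (-1) = z p - b := by ring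
    have e2 : (b * (-1)) * inner ℝ (θ t) w = -(b * inner ℝ (θ t) w) := by ring
    rw [e1, e2, mul_one]
    calc b * (κ t * (Real.exp (a * inner ℝ (θ t) w) *
            Lp (‖w‖ ^ 2) (inner ℝ (θ t) w) (z p + a) * Real.exp (q H (θ t) / 2))) +
          a * (κ t * (Real.exp (-(b * inner ℝ (θ t) w)) *
            Lp (‖w‖ ^ 2) (inner ℝ (θ t) w) (z p - b) * Real.exp (q H (θ t) / 2)))
        = (κ t * Real.exp (q H (θ t) / 2)) *
          (b * (Real.exp (a * inner ℝ (θ t) w) * Lp (‖w‖ ^ 2) (inner ℝ (θ t) w) (z p + a)) +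
           a * (Real.exp (-(b * inner ℝ (θ t) w)) *
            Lp (‖w‖ ^ 2) (inner ℝ (θ t) w) (z p - b))) := by ring
      _ ≤ (κ t * Real.exp (q H (θ t) / 2)) * ((a + b) * Lp (‖w‖ ^ 2) (inner ℝ (θ t) w) (z p)) := by
          gcongr
      _ = _ := by ring
  by_cases hcase : V1 + a * 1 * C ≤ R
  · exact ⟨ε1, hε1, hv1.trans hcase⟩
  · refine ⟨ε2, hε2, hv2.trans ?_⟩
    push Not at hcase
    by_contra hcon
    push Not at hcon
    nlinarith

theorem walk2_bound {ι τ : Type*} [DecidableEq ι] (u : ι → E) (hu : ∀ i, ‖u i‖ ≤ 1)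
    (Θ : Finset τ) (θ : τ → E) (c : ι → ℝ) (A : Finset ι) (z : ι → ℝ)
    (hz : ∀ i ∈ A, |z i| < 1) (κ : τ → ℝ) (hκ : ∀ t, 0 ≤ κ t) :
    ∃ ε : ι → ℝ, (∀ i ∈ A, ε i = 1 ∨ ε i = -1) ∧
      ∑ t ∈ Θ, κ t * Real.exp (inner ℝ (θ t) (∑ i ∈ A, (ε i - z i) • u i)) +
        ∑ i ∈ A, c i * (ε i - z i) ≤ ∑ t ∈ Θ, κ t * Real.exp (‖θ t‖ ^ 2 / 2) := by
  rcases A.eq_empty_or_nonempty with hemp | ⟨p, hp⟩
  · subst hemp
    refine ⟨fun _ => 1, by simp, ?_⟩
    simp only [Finset.sum_empty, inner_zero_right, Real.exp_zero, mul_one, add_zero]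
    apply Finset.sum_le_sum
    intro t _
    have := hκ t
    have h1 : 1 ≤ Real.exp (‖θ t‖ ^ 2 / 2) := Real.one_le_exp (by positivity)
    nlinarith
  · obtain ⟨ε, h1, h2⟩ := walk2 u hu Θ θ c A.card A rfl p hp z hz κ hκ
    refine ⟨ε, h1, h2.trans ?_⟩
    apply Finset.sum_le_sum
    intro t _
    apply mul_le_mul_of_nonneg_left _ (hκ t)
    set H : Submodule ℝ E := Submodule.span ℝ (u '' (A.erase p : Finset ι)) with hH
    set w : E := u p - H.starProjection (u p) with hw
    have hPw : H.starProjection w = 0 := by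
      have h2 : H.starProjection (H.starProjection (u p)) = H.starProjection (u p) := by
        have := Submodule.starProjection_comp_starProjection_of_le (le_refl H)
        calc H.starProjection (H.starProjection (u p))
            = (H.starProjection ∘L H.starProjection) (u p) := rfl
          _ = _ := by rw [this]
      rw [hw, map_sub, h2, sub_self]
    have hle := Lp_le (ρ := ‖w‖ ^ 2) (g := inner ℝ (θ t) w)
      (Δ := q ⊤ (θ t) - q H (θ t)) (z := z p)
      (hz p hp).le (sq_nonneg _) (sub_nonneg.2 (q_mono le_top _))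
      (inner_sq_le' le_top w (θ t) Submodule.mem_top hPw)
    calc Lp (‖w‖ ^ 2) (inner ℝ (θ t) w) (z p) * Real.exp (q H (θ t) / 2)
        ≤ Real.exp ((q ⊤ (θ t) - q H (θ t)) / 2) * Real.exp (q H (θ t) / 2) :=
          mul_le_mul_of_nonneg_right hle (Real.exp_pos _).le
      _ = Real.exp (q ⊤ (θ t) / 2) := by
          rw [← Real.exp_add]
          congr 1
          ring
      _ ≤ _ := by
          apply Real.exp_le_exp.2
          have := q_le ⊤ (θ t)
          linarith

end Vale.Agent.P262
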